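import Vale.Agent.P286.H44.Koz
import Vale.Agent.P286.H341.Ext
import Vale.Agent.P286.H273.WkAux

/-!
# The algebra `Wk`: monomials, the grading
-/

namespace Vale.Agent.P286.H44

open TensorProduct Matrix Vale.Agent.P286.H847 Vale.Agent.P286.H341

noncomputable section

set_option linter.unusedSectionVars false

section Eig

variable {V : Type} [AddCommGroup V] [Module ℂ V]

/-- A space spanned by eigenvectors with integral eigenvalues. -/
theorem internal_of_span (D : Module.End ℂ V) (S : ℤ → Submodule ℂ V)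
    (hS : ∀ m, ∀ v ∈ S m, D v = (m : ℂ) • v) (hg : ∀ v, v ∈ ⨆ m, S m) :
    DirectSum.IsInternal (fun m : ℤ => LinearMap.ker (D - (m : ℂ) • LinearMap.id)) ∧
    ∀ m : ℤ, LinearMap.ker (D - (m : ℂ) • LinearMap.id) = S m := by
  have hle : ∀ m : ℤ, S m ≤ LinearMap.ker (D - (m : ℂ) • LinearMap.id) := by
    intro m v hv
    rw [LinearMap.mem_ker, LinearMap.sub_apply, hS m v hv]
    exact sub_self _
  have hind : iSupIndep (fun m : ℤ => LinearMap.ker (D - (m : ℂ) • LinearMap.id)) := by
    have h1 := (Module.End.eigenspaces_iSupIndep D).comp (f := fun m : ℤ => (m : ℂ))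
      Int.cast_injective
    refine h1.mono fun m => ?_
    intro v hv
    rw [LinearMap.mem_ker, LinearMap.sub_apply, sub_eq_zero] at hv
    exact Module.End.mem_eigenspace_iff.2 hv
  have htop : ⨆ m, S m = ⊤ := eq_top_iff.2 fun v _ => hg v
  refine ⟨?_, ?_⟩
  · rw [DirectSum.isInternal_submodule_iff_iSupIndep_and_iSup_eq_top]
    refine ⟨hind, ?_⟩
    rw [eq_top_iff, ← htop]
    exact iSup_mono hle
  · intro m
    refine le_antisymm ?_ (hle m)
    intro v hv
    have h1 : v ∈ S m ⊔ ⨆ (j : ℤ) (_ : j ≠ m), S j := by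
      have h2 : ⨆ j, S j ≤ S m ⊔ ⨆ (j : ℤ) (_ : j ≠ m), S j := by
        refine iSup_le fun j => ?_
        by_cases h : j = m
        · subst h; exact le_sup_left
        · exact le_trans (le_iSup₂_of_le j h le_rfl) le_sup_right
      exact h2 (hg v)
    obtain ⟨a, ha, b, hb, rfl⟩ := Submodule.mem_sup.1 h1
    have hb1 : b ∈ LinearMap.ker (D - (m : ℂ) • LinearMap.id) := by
      have := sub_mem hv (hle m ha)
      rwa [add_sub_cancel_left] at this
    have hb2 : b ∈ ⨆ (j : ℤ) (_ : j ≠ m), LinearMap.ker (D - (j : ℂ) • LinearMap.id) :=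
      (iSup₂_mono fun j _ => hle j) hb
    have := Submodule.disjoint_def.1 (hind m) b hb1 hb2
    rw [this, add_zero]
    exact ha

end Eig

namespace WkM

variable {I : Type} [Fintype I] [DecidableEq I] {n : ℕ}

open Wk

theorem ind {p : Wk I n → Prop} (h : ∀ (l : Lm I n) (f : Pl I), p (l ⊗ₜ[ℂ] f))
    (ha : ∀ x y, p x → p y → p (x + y)) (x : Wk I n) : p x := by
  induction x using TensorProduct.induction_on with
  | zero => have := h 0 0; rwa [zero_tmul] at this
  | tmul l f => exact h l f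
  | add x y hx hy => exact ha x y hx hy

theorem inL_mul_tmul (l l' : Lm I n) (f : Pl I) :
    inL I n l * (l' ⊗ₜ[ℂ] f) = (l * l') ⊗ₜ[ℂ] f := by
  rw [inL, Algebra.TensorProduct.includeLeft_apply, Algebra.TensorProduct.tmul_mul_tmul, one_mul]

theorem inP_mul_tmul (l : Lm I n) (f g : Pl I) :
    inP I n f * (l ⊗ₜ[ℂ] g) = l ⊗ₜ[ℂ] (f * g) := by
  rw [inP, Algebra.TensorProduct.includeRight_apply, Algebra.TensorProduct.tmul_mul_tmul, one_mul]

theorem inP_comm (f : Pl I) (x : Wk I n) : inP I n f * x = x * inP I n f := by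
  induction x using ind with
  | h l g =>
    rw [inP_mul_tmul, inP, Algebra.TensorProduct.includeRight_apply,
      Algebra.TensorProduct.tmul_mul_tmul, mul_one, mul_comm]
  | ha x y hx hy => rw [mul_add, add_mul, hx, hy]

theorem ct_tmul (a : Gn I n) (l : Lm I n) (f : Pl I) :
    ct I n a (l ⊗ₜ[ℂ] f) = (CliffordAlgebra.contractLeft (LinearMap.proj a) l : Lm I n) ⊗ₜ[ℂ] f := rfl

theorem pd_tmul (s : I × I) (l : Lm I n) (f : Pl I) :
    pd I n s (l ⊗ₜ[ℂ] f) = l ⊗ₜ[ℂ] (MvPolynomial.pderiv s f) := rfl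

theorem sg_tmul (l : Lm I n) (f : Pl I) :
    sg I n (l ⊗ₜ[ℂ] f) = (CliffordAlgebra.involute l : Lm I n) ⊗ₜ[ℂ] f := rfl

theorem gn_mul_tmul (a : Gn I n) (l : Lm I n) (f : Pl I) :
    gn I n a * (l ⊗ₜ[ℂ] f) = (ExteriorAlgebra.ι ℂ (Pi.single a 1) * l) ⊗ₜ[ℂ] f :=
  inL_mul_tmul _ _ _

theorem gn_gn (a b : Gn I n) : gn I n a * gn I n b = -(gn I n b * gn I n a) := by
  have h : (ExteriorAlgebra.ι ℂ (Pi.single a 1) * ExteriorAlgebra.ι ℂ (Pi.single b 1) : Lm I n) =
      -(ExteriorAlgebra.ι ℂ (Pi.single b 1) * ExteriorAlgebra.ι ℂ (Pi.single a 1)) :=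
    eq_neg_of_add_eq_zero_left (ExteriorAlgebra.ι_add_mul_swap _ _)
  have h2 := congrArg (inL I n) h
  rw [map_neg, map_mul, map_mul] at h2
  exact h2

theorem gn_gn_mul (a b : Gn I n) (x : Wk I n) :
    gn I n a * (gn I n b * x) = -(gn I n b * (gn I n a * x)) := by
  rw [← mul_assoc, gn_gn, H273.w_neg_mul, mul_assoc]

theorem ct_gn_mul (a b : Gn I n) (x : Wk I n) :
    ct I n a (gn I n b * x) = (if a = b then x else 0) - gn I n b * ct I n a x := by
  induction x using ind with
  | h l f =>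
    rw [gn_mul_tmul, ct_tmul, ct_tmul, gn_mul_tmul]
    have h1 : (CliffordAlgebra.contractLeft (LinearMap.proj a)
        (ExteriorAlgebra.ι ℂ (Pi.single b 1) * l) : Lm I n) =
        (Pi.single b 1 : Gn I n → ℂ) a • l - ExteriorAlgebra.ι ℂ (Pi.single b 1) *
          CliffordAlgebra.contractLeft (LinearMap.proj a) l :=
      CliffordAlgebra.contractLeft_ι_mul _ _ _
    rw [h1, sub_tmul, Pi.single_apply]
    congr 1
    split_ifs
    · rw [one_smul]
    · rw [zero_smul, zero_tmul]
  | ha x y hx hy =>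
    rw [mul_add, map_add, map_add, hx, hy, mul_add]
    split_ifs <;> abel

theorem ct_inP_mul (a : Gn I n) (f : Pl I) (x : Wk I n) :
    ct I n a (inP I n f * x) = inP I n f * ct I n a x := by
  induction x using ind with
  | h l g => rw [inP_mul_tmul, ct_tmul, ct_tmul, inP_mul_tmul]
  | ha x y hx hy => rw [mul_add, map_add, map_add, hx, hy, mul_add]

theorem pd_gn_mul (s : I × I) (b : Gn I n) (x : Wk I n) :
    pd I n s (gn I n b * x) = gn I n b * pd I n s x := by
  induction x using ind with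
  | h l f => rw [gn_mul_tmul, pd_tmul, pd_tmul, gn_mul_tmul]
  | ha x y hx hy => rw [mul_add, map_add, map_add, hx, hy, mul_add]

theorem pd_inP_mul (s : I × I) (f : Pl I) (x : Wk I n) :
    pd I n s (inP I n f * x) = inP I n (MvPolynomial.pderiv s f) * x + inP I n f * pd I n s x := by
  induction x using ind with
  | h l g =>
    rw [inP_mul_tmul, pd_tmul, pd_tmul, inP_mul_tmul, inP_mul_tmul, Derivation.leibniz, ← tmul_add,
      smul_eq_mul, smul_eq_mul, add_comm, mul_comm g]
  | ha x y hx hy => rw [mul_add, map_add, map_add, hx, hy, mul_add, mul_add]; abel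

theorem sg_gn_mul (b : Gn I n) (x : Wk I n) :
    sg I n (gn I n b * x) = -(gn I n b * sg I n x) := by
  induction x using ind with
  | h l f =>
    have h1 : (CliffordAlgebra.involute (ExteriorAlgebra.ι ℂ (Pi.single b 1) * l) : Lm I n) =
        -(ExteriorAlgebra.ι ℂ (Pi.single b 1) * CliffordAlgebra.involute l) := by
      rw [map_mul]
      have : (CliffordAlgebra.involute (ExteriorAlgebra.ι ℂ (Pi.single b 1)) : Lm I n) =
        -ExteriorAlgebra.ι ℂ (Pi.single b 1) := CliffordAlgebra.involute_ι _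
      rw [this, neg_mul]
    rw [gn_mul_tmul, sg_tmul, sg_tmul, gn_mul_tmul, h1, neg_tmul]
  | ha x y hx hy => rw [mul_add, map_add, map_add, hx, hy, mul_add]; abel

theorem sg_inP_mul (f : Pl I) (x : Wk I n) :
    sg I n (inP I n f * x) = inP I n f * sg I n x := by
  induction x using ind with
  | h l g => rw [inP_mul_tmul, sg_tmul, sg_tmul, inP_mul_tmul]
  | ha x y hx hy => rw [mul_add, map_add, map_add, hx, hy, mul_add]

theorem Fm_apply (i j : I) : Fm I n i j = inP I n (MvPolynomial.X (i, j)) := rfl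

theorem ct_one (a : Gn I n) : ct I n a 1 = 0 := by
  rw [Algebra.TensorProduct.one_def, ct_tmul]
  have : (CliffordAlgebra.contractLeft (LinearMap.proj a) 1 : Lm I n) = 0 :=
    CliffordAlgebra.contractLeft_one _ _
  rw [this, zero_tmul]

theorem pd_one (s : I × I) : pd I n s 1 = 0 := by
  rw [Algebra.TensorProduct.one_def, pd_tmul, Derivation.map_one_eq_zero, tmul_zero]

theorem sg_one : sg I n 1 = 1 := map_one (sgA I n)

/-- Multiplication by `θ`. -/
def T (p : I × I) : Module.End ℂ (Wk I n) := LinearMap.mulLeft ℂ (gn I n (Sum.inl p))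

/-- Multiplication by `F`. -/
def Φ (p : I × I) : Module.End ℂ (Wk I n) := LinearMap.mulLeft ℂ (Fm I n p.1 p.2)

/-- Multiplication by `ξ`. -/
def X (t : Fin n) : Module.End ℂ (Wk I n) := LinearMap.mulLeft ℂ (gn I n (Sum.inr t))

theorem T_apply (p : I × I) (x : Wk I n) : T p x = gn I n (Sum.inl p) * x := rfl

theorem Φ_apply (p : I × I) (x : Wk I n) : Φ p x = inP I n (MvPolynomial.X p) * x := rfl

theorem X_apply (t : Fin n) (x : Wk I n) : X t x = gn I n (Sum.inr t) * x := rfl

/-- The degrees of the generators `ξ`. -/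
def w (n : ℕ) (t : Fin n) : ℕ := 4 * (t : ℕ) + 3

/-- The span of the monomials. -/
abbrev S (I : Type) [Fintype I] [DecidableEq I] (n : ℕ) (m : ℤ) (k : ℕ) : Submodule ℂ (Wk I n) :=
  ms (w n) 1 T Φ X m k

theorem iSup_stable {f : Module.End ℂ (Wk I n)} {j : ℤ}
    (hf : ∀ m, ∀ v ∈ S I n m 0, f v ∈ S I n (m + j) 0) {v : Wk I n} (hv : v ∈ ⨆ m, S I n m 0) :
    f v ∈ ⨆ m, S I n m 0 := by
  have : ⨆ m, S I n m 0 ≤ (⨆ m, S I n m 0).comap f :=
    iSup_le fun m v hv => Submodule.mem_iSup_of_mem (m + j) (hf m v hv)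
  exact this hv

theorem gn_mem_iSup (a : Gn I n) {v : Wk I n} (hv : v ∈ ⨆ m, S I n m 0) :
    gn I n a * v ∈ ⨆ m, S I n m 0 := by
  rcases a with p | t
  · exact iSup_stable (f := T p) (j := 1) (fun m v hv => ms_le (Nat.zero_le _) (T_ms p hv)) hv
  · exact iSup_stable (f := X t) (j := (w n t : ℕ)) (fun m v hv => X_ms t hv) hv

/-- The monomials span. -/
theorem gen (v : Wk I n) : v ∈ ⨆ m, S I n m 0 := by
  induction v using ind with
  | ha x y hx hy => exact add_mem hx hy
  | h l f =>
    have hP : ∀ f : Pl I, inP I n f ∈ ⨆ m, S I n m 0 := by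
      intro f
      induction f using MvPolynomial.induction_on with
      | C a =>
        have h1 : inP I n (MvPolynomial.C a) = a • (1 : Wk I n) := by
          rw [← MvPolynomial.algebraMap_eq, AlgHom.commutes, Algebra.algebraMap_eq_smul_one]
        rw [h1]
        exact Submodule.smul_mem _ _ (Submodule.mem_iSup_of_mem 0 Mon.one.mem)
      | add f g hf hg => rw [map_add]; exact add_mem hf hg
      | mul_X f p hf =>
        rw [map_mul, ← inP_comm]
        exact iSup_stable (f := Φ p) (j := 2)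
          (fun m v hv => ms_le (Nat.zero_le _) (Φ_ms p hv)) hf
    have h1 : l ⊗ₜ[ℂ] f = inL I n l * inP I n f := by
      rw [inL, inP, Algebra.TensorProduct.includeLeft_apply,
        Algebra.TensorProduct.includeRight_apply, Algebra.TensorProduct.tmul_mul_tmul, mul_one,
        one_mul]
    rw [h1]
    clear h1
    have h2 : ∀ v ∈ ⨆ m, S I n m 0, inL I n l * v ∈ ⨆ m, S I n m 0 := by
      induction l using Ex.ind with
      | h1 => intro v hv; rw [map_one, one_mul]; exact hv
      | hs c x hx =>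
        intro v hv
        rw [map_smul, smul_mul_assoc]
        exact Submodule.smul_mem _ _ (hx v hv)
      | ha x y hx hy =>
        intro v hv
        rw [map_add, add_mul]
        exact add_mem (hx v hv) (hy v hv)
      | hm u x hx =>
        intro v hv
        rw [map_mul, mul_assoc, Ex.ι_eq, map_sum, Finset.sum_mul]
        refine Submodule.sum_mem _ fun a _ => ?_
        rw [map_smul, smul_mul_assoc]
        exact Submodule.smul_mem _ _ (gn_mem_iSup a (hx v hv))
    exact h2 _ (hP f)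

theorem Nm_apply (x : Wk I n) : Nm I n x =
    ∑ a, ((dg I n a : ℤ) : ℂ) • (gn I n a * ct I n a x) +
      ∑ s : I × I, (2 : ℂ) • (inP I n (MvPolynomial.X s) * pd I n s x) := by
  rw [Nm, LinearMap.add_apply, LinearMap.sum_apply, LinearMap.sum_apply]
  rfl

theorem Nm_gn_mul (b : Gn I n) (x : Wk I n) : Nm I n (gn I n b * x) =
    ((dg I n b : ℤ) : ℂ) • (gn I n b * x) + gn I n b * Nm I n x := by
  rw [Nm_apply, Nm_apply, mul_add, Finset.mul_sum, Finset.mul_sum, ← add_assoc]
  congr 1
  · have h : ∀ a, ((dg I n a : ℤ) : ℂ) • (gn I n a * ct I n a (gn I n b * x)) =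
        (if a = b then ((dg I n a : ℤ) : ℂ) • (gn I n a * x) else 0) +
          gn I n b * (((dg I n a : ℤ) : ℂ) • (gn I n a * ct I n a x)) := by
      intro a
      rw [ct_gn_mul, mul_sub, gn_gn_mul a b, mul_smul_comm, sub_neg_eq_add, smul_add]
      congr 1
      split_ifs
      · rfl
      · rw [mul_zero, smul_zero]
    simp only [h]
    rw [Finset.sum_add_distrib, Finset.sum_ite_eq', if_pos (Finset.mem_univ b)]
  · refine Finset.sum_congr rfl fun s _ => ?_
    rw [pd_gn_mul, mul_smul_comm, inP_comm, inP_comm, mul_assoc]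

theorem Nm_X_mul (p : I × I) (x : Wk I n) : Nm I n (inP I n (MvPolynomial.X p) * x) =
    (2 : ℂ) • (inP I n (MvPolynomial.X p) * x) + inP I n (MvPolynomial.X p) * Nm I n x := by
  rw [Nm_apply, Nm_apply, mul_add, Finset.mul_sum, Finset.mul_sum, add_left_comm]
  congr 1
  · refine Finset.sum_congr rfl fun a _ => ?_
    rw [ct_inP_mul, mul_smul_comm, ← mul_assoc, ← mul_assoc, inP_comm]
  · have h : ∀ s, (2 : ℂ) • (inP I n (MvPolynomial.X s) *
        pd I n s (inP I n (MvPolynomial.X p) * x)) =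
        (if s = p then (2 : ℂ) • (inP I n (MvPolynomial.X s) * x) else 0) +
        inP I n (MvPolynomial.X p) * ((2 : ℂ) • (inP I n (MvPolynomial.X s) * pd I n s x)) := by
      intro s
      rw [pd_inP_mul, mul_add, smul_add, mul_smul_comm, ← mul_assoc (inP I n (MvPolynomial.X p)),
        ← map_mul, mul_comm (MvPolynomial.X p : Pl I), map_mul, mul_assoc]
      congr 1
      rw [MvPolynomial.pderiv_X]
      by_cases h : s = p
      · subst h; rw [Pi.single_eq_same, map_one, one_mul, if_pos rfl]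
      · rw [Pi.single_eq_of_ne (Ne.symm h), map_zero, zero_mul, mul_zero, smul_zero, if_neg h]
    simp only [h]
    rw [Finset.sum_add_distrib, Finset.sum_ite_eq', if_pos (Finset.mem_univ p)]

theorem Nm_one : Nm I n 1 = 0 := by
  rw [Nm_apply]
  simp only [ct_one, pd_one, mul_zero, smul_zero, Finset.sum_const_zero, add_zero]

theorem Nm_mon {m : ℤ} {k : ℕ} {v : Wk I n} (h : Mon (w n) 1 T Φ X m k v) :
    Nm I n v = (m : ℂ) • v := by
  induction h with
  | one => rw [Nm_one, Int.cast_zero, zero_smul]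
  | th a m k v _ ih =>
    rw [T_apply, Nm_gn_mul, ih, mul_smul_comm, ← add_smul]
    congr 1
    rw [Int.cast_add, Int.cast_one]
    change ((1 : ℤ) : ℂ) + _ = _
    rw [Int.cast_one, add_comm]
  | cu a m k v _ ih =>
    rw [Φ_apply, Nm_X_mul, ih, mul_smul_comm, ← add_smul]
    congr 1
    rw [Int.cast_add, Int.cast_ofNat, add_comm]
  | xi i m k v _ ih =>
    rw [X_apply, Nm_gn_mul, ih, mul_smul_comm, ← add_smul]
    congr 1
    change ((4 * ((i : ℕ) : ℤ) + 3 : ℤ) : ℂ) + _ = _
    rw [w]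
    push_cast
    ring

theorem Nm_S {m : ℤ} {v : Wk I n} (h : v ∈ S I n m 0) : Nm I n v = (m : ℂ) • v := by
  have : Nm I n v - (m : ℂ) • v ∈ (⊥ : Submodule ℂ (Wk I n)) :=
    map_ms (S := Nm I n - (m : ℂ) • LinearMap.id) (fun j _ v hv => by
      rw [Submodule.mem_bot, LinearMap.sub_apply, Nm_mon hv]
      exact sub_self _) h
  exact sub_eq_zero.1 ((Submodule.mem_bot ℂ).1 this)

/-- The grading is the span of the monomials. -/
theorem gr_eq (m : ℤ) : gr I n m = S I n m 0 :=
  (internal_of_span (Nm I n) (fun m => S I n m 0) (fun _ _ h => Nm_S h) gen).2 m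

/-- **The algebra is the direct sum of its homogeneous parts.** -/
theorem internal : DirectSum.IsInternal (gr I n) :=
  (internal_of_span (Nm I n) (fun m => S I n m 0) (fun _ _ h => Nm_S h) gen).1

theorem sg_mon {m : ℤ} {k : ℕ} {v : Wk I n} (h : Mon (w n) 1 T Φ X m k v) :
    sg I n v = (m.negOnePow : ℤ) • v := by
  induction h with
  | one => rw [sg_one, Int.negOnePow_zero, Units.val_one, one_smul]
  | th a m k v _ ih =>
    rw [T_apply, sg_gn_mul, ih, mul_smul_comm, Int.negOnePow_succ, Units.val_neg, neg_smul]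
  | cu a m k v _ ih =>
    rw [Φ_apply, sg_inP_mul, ih, mul_smul_comm, Int.negOnePow_add, Int.negOnePow_even 2 even_two,
      mul_one]
  | xi i m k v _ ih =>
    rw [X_apply, sg_gn_mul, ih, mul_smul_comm, Int.negOnePow_add,
      Int.negOnePow_odd ((w n i : ℕ) : ℤ) ⟨2 * (i : ℤ) + 1, by rw [w]; push_cast; ring⟩,
      mul_neg, mul_one, Units.val_neg, neg_smul]

/-- The sign of the homogeneous elements. -/
theorem sg_gr (m : ℤ) (v : Wk I n) (hv : v ∈ gr I n m) : sg I n v = (m.negOnePow : ℤ) • v := by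
  rw [gr_eq] at hv
  have : sg I n v - ((m.negOnePow : ℤ) : ℂ) • v ∈ (⊥ : Submodule ℂ (Wk I n)) :=
    map_ms (S := sg I n - ((m.negOnePow : ℤ) : ℂ) • LinearMap.id) (fun j _ v hv => by
      rw [Submodule.mem_bot, LinearMap.sub_apply, sg_mon hv, ← Int.cast_smul_eq_zsmul ℂ]
      exact sub_self _) hv
  rw [← Int.cast_smul_eq_zsmul ℂ]
  exact sub_eq_zero.1 ((Submodule.mem_bot ℂ).1 this)

end WkM

end

end Vale.Agent.P286.H44
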