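import Vale.Agent.P286.H44.WkMon
import Vale.Agent.P286.H166.Wk1

/-!
# The contraction of the Weil algebra
-/

namespace Vale.Agent.P286.H44

open TensorProduct Matrix Vale.Agent.P286.H847 Vale.Agent.P286.H341

noncomputable section

set_option linter.unusedSectionVars false

section Hom

variable {α β V : Type} [AddCommGroup V] [Module ℂ V] {w : β → ℕ} {o : V}
  {T Φ : α → Module.End ℂ V} {X : β → Module.End ℂ V}

/-- Multiplication by a homogeneous polynomial in the generators of degree two. -/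
theorem hom_ms (A : MvPolynomial α ℂ →ₐ[ℂ] Module.End ℂ V) (hA : ∀ a, A (MvPolynomial.X a) = Φ a)
    {f : MvPolynomial α ℂ} {j : ℕ} (hf : f.IsHomogeneous j) {m : ℤ} {k : ℕ} {v : V}
    (hv : v ∈ ms w o T Φ X m k) : A f v ∈ ms w o T Φ X (m + 2 * j) (k + j) := by
  have h1 : ∀ (s : α →₀ ℕ) (m : ℤ) (k : ℕ) (v : V), v ∈ ms w o T Φ X m k →
      A (MvPolynomial.monomial s 1) v ∈ ms w o T Φ X
        (m + 2 * (Finsupp.weight (1 : α → ℕ) s : ℕ)) (k + Finsupp.weight (1 : α → ℕ) s) := by
    intro s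
    induction s using Finsupp.induction_linear with
    | zero =>
      intro m k v hv
      have : (MvPolynomial.monomial (0 : α →₀ ℕ) (1 : ℂ)) = 1 := rfl
      rw [this, map_one, map_zero]
      simpa using hv
    | add s t hs ht =>
      intro m k v hv
      have h2 := hs _ _ _ (ht m k v hv)
      have h3 : (MvPolynomial.monomial (s + t) (1 : ℂ)) =
          MvPolynomial.monomial s 1 * MvPolynomial.monomial t 1 := by
        rw [MvPolynomial.monomial_mul, one_mul]
      rw [h3, map_mul, map_add, Module.End.mul_apply]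
      convert h2 using 2
      · push_cast; ring
      · ring
    | single a n =>
      induction n with
      | zero =>
        intro m k v hv
        rw [Finsupp.single_zero]
        have : (MvPolynomial.monomial (0 : α →₀ ℕ) (1 : ℂ)) = 1 := rfl
        rw [this, map_one, map_zero]
        simpa using hv
      | succ n ih =>
        intro m k v hv
        have h2 := Φ_ms (w := w) (o := o) (T := T) (Φ := Φ) (X := X) a (ih m k v hv)
        have h3 : (MvPolynomial.monomial (Finsupp.single a (n + 1)) (1 : ℂ)) =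
            MvPolynomial.X a * MvPolynomial.monomial (Finsupp.single a n) 1 := by
          rw [MvPolynomial.X, MvPolynomial.monomial_mul, one_mul, ← Finsupp.single_add, add_comm]
        rw [h3, map_mul, hA, Module.End.mul_apply]
        convert h2 using 2
        · rw [Finsupp.weight_single, Finsupp.weight_single]
          simp
          ring
        · rw [Finsupp.weight_single, Finsupp.weight_single]
          simp
          ring
  rw [f.as_sum, map_sum, LinearMap.sum_apply]
  refine Submodule.sum_mem _ fun s hs => ?_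
  have h2 := hf (MvPolynomial.mem_support_iff.1 hs)
  have h3 : MvPolynomial.monomial s (MvPolynomial.coeff s f) =
      MvPolynomial.coeff s f • MvPolynomial.monomial s (1 : ℂ) := by
    rw [MvPolynomial.smul_monomial, smul_eq_mul, mul_one]
  rw [h3, map_smul, LinearMap.smul_apply]
  refine Submodule.smul_mem _ _ ?_
  have h4 := h1 s m k v hv
  rwa [h2] at h4

end Hom

namespace WkM

open Wk

variable {I : Type} [Fintype I] [DecidableEq I] {n : ℕ}

/-- The leading part of the differential. -/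
def d0 : Module.End ℂ (Wk I n) := ∑ p : I × I, Φ p ∘ₗ ct I n (Sum.inl p)

/-- Its homotopy. -/
def h0 : Module.End ℂ (Wk I n) := ∑ p : I × I, T p ∘ₗ pd I n p

theorem d0_apply (x : Wk I n) :
    d0 x = ∑ p : I × I, inP I n (MvPolynomial.X p) * ct I n (Sum.inl p) x := by
  rw [d0, LinearMap.sum_apply]
  rfl

theorem h0_apply (x : Wk I n) : h0 x = ∑ p : I × I, gn I n (Sum.inl p) * pd I n p x := by
  rw [h0, LinearMap.sum_apply]
  rfl

theorem w_mul_sum {κ : Type} (s : Finset κ) (x : Wk I n) (f : κ → Wk I n) :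
    x * ∑ i ∈ s, f i = ∑ i ∈ s, x * f i := Finset.mul_sum _ _ _

theorem d0_gn (a : Gn I n) (x : Wk I n) : d0 (gn I n a * x) =
    (Sum.elim (fun p => inP I n (MvPolynomial.X p) * x) (fun _ => 0) a : Wk I n) -
      gn I n a * d0 x := by
  rw [d0_apply, d0_apply, w_mul_sum]
  have h1 : ∀ p : I × I, inP I n (MvPolynomial.X p) * ct I n (Sum.inl p) (gn I n a * x) =
      inP I n (MvPolynomial.X p) * (if (Sum.inl p : Gn I n) = a then x else 0) -
        gn I n a * (inP I n (MvPolynomial.X p) * ct I n (Sum.inl p) x) := by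
    intro p
    rw [ct_gn_mul, H273.w_mul_sub]
    congr 1
    rw [← mul_assoc, ← mul_assoc, inP_comm]
  simp only [h1]
  rw [Finset.sum_sub_distrib]
  congr 1
  rcases a with q | t
  · rw [Finset.sum_eq_single q]
    · rw [if_pos rfl]; rfl
    · intro p _ hp
      rw [if_neg (fun h => hp (Sum.inl.inj h)), mul_zero]
    · intro h; exact absurd (Finset.mem_univ q) h
  · exact Finset.sum_eq_zero fun p _ => by rw [if_neg Sum.inl_ne_inr, mul_zero]

theorem h0_gn (a : Gn I n) (x : Wk I n) : h0 (gn I n a * x) = -(gn I n a * h0 x) := by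
  rw [h0_apply, h0_apply, w_mul_sum, ← Finset.sum_neg_distrib]
  refine Finset.sum_congr rfl fun p _ => ?_
  rw [pd_gn_mul, gn_gn_mul]

theorem prA_comm (l : Lm I n) (f : Pl I) :
    Commute (ExteriorAlgebra.map (LinearMap.funLeft ℂ ℂ (Sum.inr : Fin n → Gn I n)) l)
      ((Algebra.ofId ℂ (Ex (Fin n))).comp (MvPolynomial.aeval fun _ => (0 : ℂ)) f) := by
  rw [AlgHom.comp_apply, Algebra.ofId_apply]
  exact Algebra.commute_algebraMap_right _ _

/-- The projection to the exterior algebra on the `ξ`. -/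
def prA (I : Type) [Fintype I] [DecidableEq I] (n : ℕ) : Wk I n →ₐ[ℂ] Ex (Fin n) :=
  Algebra.TensorProduct.lift
    (ExteriorAlgebra.map (LinearMap.funLeft ℂ ℂ (Sum.inr : Fin n → Gn I n)))
    ((Algebra.ofId ℂ (Ex (Fin n))).comp (MvPolynomial.aeval fun _ => (0 : ℂ))) prA_comm

theorem prA_gn (a : Gn I n) : prA I n (gn I n a) =
    Sum.elim (fun _ => 0) (fun t => Ex.gn t) a := by
  rw [prA, gn, inL, Algebra.TensorProduct.includeLeft_apply, Algebra.TensorProduct.lift_tmul,
    map_one, mul_one, ExteriorAlgebra.map_apply_ι]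
  rcases a with p | t
  · have : LinearMap.funLeft ℂ ℂ (Sum.inr : Fin n → Gn I n) (Pi.single (Sum.inl p) 1) = 0 := by
      ext t; simp
    rw [this, map_zero]
    rfl
  · have : LinearMap.funLeft ℂ ℂ (Sum.inr : Fin n → Gn I n) (Pi.single (Sum.inr t) 1) =
        Pi.single t 1 := by
      ext s
      by_cases h : s = t
      · subst h; simp
      · simp [h]
    rw [this]
    rfl

theorem prA_X (p : I × I) : prA I n (inP I n (MvPolynomial.X p)) = 0 := by
  rw [prA, inP, Algebra.TensorProduct.includeRight_apply, Algebra.TensorProduct.lift_tmul,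
    map_one, one_mul, AlgHom.comp_apply, MvPolynomial.aeval_X, map_zero]

/-- The section. -/
def seA (I : Type) [Fintype I] [DecidableEq I] (n : ℕ) : Ex (Fin n) →ₐ[ℂ] Wk I n :=
  (inL I n).comp (ExteriorAlgebra.map (LinearMap.pi fun a : Gn I n =>
      Sum.elim (fun _ => 0) (fun t => LinearMap.proj t) a))

theorem seA_gn (t : Fin n) : seA I n (Ex.gn t) = gn I n (Sum.inr t) := by
  rw [seA, AlgHom.comp_apply, Ex.gn, ExteriorAlgebra.map_apply_ι, gn]
  congr 2
  ext a
  rcases a with p | s
  · simp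
  · by_cases h : s = t
    · subst h; simp
    · simp [h]

theorem pr_se (z : Ex (Fin n)) : prA I n (seA I n z) = z := by
  induction z using Ex.ind with
  | h1 => rw [map_one, map_one]
  | hs c x hx => rw [map_smul, map_smul, hx]
  | ha x y hx hy => rw [map_add, map_add, hx, hy]
  | hm v x hx =>
    rw [map_mul, map_mul, hx, Ex.ι_eq, map_sum, map_sum]
    congr 1
    refine Finset.sum_congr rfl fun t _ => ?_
    rw [map_smul, map_smul, seA_gn, prA_gn]
    rfl

theorem d_gn_mul' (a : Gn I n) (x : Wk I n) : Wk.d I n (Wk.gn I n a * x) =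
    Wk.dgn I n a * x - Wk.gn I n a * Wk.d I n x := by
  rw [Wk.d_mul, Wk.d_gn, Wk.sgA_gn, H273.w_neg_mul, sub_eq_add_neg]

theorem d_X_mul' (s : I × I) (x : Wk I n) : Wk.d I n (Wk.inP I n (MvPolynomial.X s) * x) =
    Wk.dF I n s * x + Wk.inP I n (MvPolynomial.X s) * Wk.d I n x := by
  have h1 := Wk.d_Fm (n := n) s.1 s.2
  rw [Wk.Fm_apply] at h1
  rw [Wk.d_mul, h1, Wk.sgA_inP]
  rfl

theorem dgn_inl_mul (i j : I) (x : Wk I n) : dgn I n (Sum.inl (i, j)) * x =
    inP I n (MvPolynomial.X (i, j)) * x - ∑ l, T (i, l) (T (l, j) x) := by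
  have h1 : dgn I n (Sum.inl (i, j)) = Fm I n i j - ∑ l, gn I n (Sum.inl (i, l)) *
      gn I n (Sum.inl (l, j)) := by
    change (Wk.Fm I n - Wk.th I n * Wk.th I n) i j = _
    rw [Matrix.sub_apply, Matrix.mul_apply]
    rfl
  rw [h1, H273.w_sub_mul, Finset.sum_mul]
  congr 1
  exact Finset.sum_congr rfl fun l _ => mul_assoc _ _ _

theorem dF_mul (i j : I) (x : Wk I n) : dF I n (i, j) * x =
    ∑ l, Φ (i, l) (T (l, j) x) - ∑ l, T (i, l) (Φ (l, j) x) := by
  have h1 : dF I n (i, j) = ∑ l, Fm I n i l * gn I n (Sum.inl (l, j)) -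
      ∑ l, gn I n (Sum.inl (i, l)) * Fm I n l j := by
    change (Wk.Fm I n * Wk.th I n - Wk.th I n * Wk.Fm I n) i j = _
    rw [Matrix.sub_apply, Matrix.mul_apply, Matrix.mul_apply]
    rfl
  rw [h1, H273.w_sub_mul, Finset.sum_mul, Finset.sum_mul]
  congr 1
  · exact Finset.sum_congr rfl fun l _ => mul_assoc _ _ _
  · exact Finset.sum_congr rfl fun l _ => mul_assoc _ _ _

/-- The generators of `Wk`. -/
def koz (I : Type) [Fintype I] [DecidableEq I] (n : ℕ) :
    Koz (I × I) (w n) (fun t : Fin n => (Ex.th t : Module.End ℂ (Ex (Fin n)))) 1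
      (WK I n).toGD where
  o := (1 : Wk I n)
  T := T
  Φ := Φ
  X := X
  d0 := d0
  h := h0
  pr := (prA I n).toLinearMap
  sec := (seA I n).toLinearMap
  o_gr := Wk.one_gr
  T_gr a m v hv := by
    have := Wk.mul_gr (Wk.gn_gr (n := n) (Sum.inl a : Gn I n)) hv
    rwa [show Wk.dg I n (Sum.inl a) + m = m + 1 from add_comm _ _] at this
  Φ_gr a m v hv := by
    have := Wk.mul_gr (Wk.Fm_gr (n := n) a.1 a.2) hv
    rwa [show (2 : ℤ) + m = m + 2 from add_comm _ _] at this
  X_gr t m v hv := by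
    have := Wk.mul_gr (Wk.gn_gr (n := n) (Sum.inr t : Gn I n)) hv
    rwa [show Wk.dg I n (Sum.inr t) + m = m + (w n t : ℕ) by
      change (4 * ((t : ℕ) : ℤ) + 3) + m = _
      rw [w]; push_cast; ring] at this
  gr_le m := (gr_eq m).le
  gen := gen
  d_o := Wk.d_one
  d_T a m k v hv := by
    obtain ⟨i, j⟩ := a
    have h1 : Wk.d I n (T (i, j) v) + T (i, j) (Wk.d I n v) - Φ (i, j) v =
        -∑ l, T (i, l) (T (l, j) v) := by
      rw [T_apply, T_apply, d_gn_mul', sub_add_cancel, dgn_inl_mul, Φ_apply]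
      abel
    change Wk.d I n (T (i, j) v) + T (i, j) (Wk.d I n v) - Φ (i, j) v ∈ S I n (m + 2) (k + 2)
    rw [h1]
    refine neg_mem (Submodule.sum_mem _ fun l _ => ?_)
    have := T_ms (w := w n) (o := (1 : Wk I n)) (T := T) (Φ := Φ) (X := X) (i, l)
      (hv.th (l, j) _ _ _).mem
    rwa [show m + 1 + 1 = m + 2 by ring] at this
  d_Φ a m k v hv := by
    obtain ⟨i, j⟩ := a
    have h1 : Wk.d I n (Φ (i, j) v) - Φ (i, j) (Wk.d I n v) =
        ∑ l, Φ (i, l) (T (l, j) v) - ∑ l, T (i, l) (Φ (l, j) v) := by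
      rw [Φ_apply, Φ_apply, d_X_mul', add_sub_cancel_right, dF_mul]
    change Wk.d I n (Φ (i, j) v) - Φ (i, j) (Wk.d I n v) ∈ S I n (m + 3) (k + 2)
    rw [h1]
    refine sub_mem (Submodule.sum_mem _ fun l _ => ?_) (Submodule.sum_mem _ fun l _ => ?_)
    · have := Φ_ms (w := w n) (o := (1 : Wk I n)) (T := T) (Φ := Φ) (X := X) (i, l)
        (hv.th (l, j) _ _ _).mem
      rwa [show m + 1 + 2 = m + 3 by ring] at this
    · have := T_ms (w := w n) (o := (1 : Wk I n)) (T := T) (Φ := Φ) (X := X) (i, l)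
        (hv.cu (l, j) _ _ _).mem
      rwa [show m + 2 + 1 = m + 3 by ring] at this
  d_X t m k v hv := by
    have h1 : Wk.d I n (X t v) + X t (Wk.d I n v) =
        inP I n (ep I (2 * ((t : ℕ) + 1))) * v := by
      rw [X_apply, X_apply, d_gn_mul', sub_add_cancel]
      rfl
    change Wk.d I n (X t v) + X t (Wk.d I n v) ∈ S I n (m + (w n t : ℕ) + 1) (k + 1)
    rw [h1]
    have h2 := hom_ms (w := w n) (o := (1 : Wk I n)) (T := T) (Φ := Φ) (X := X)
      ((Algebra.lmul ℂ (Wk I n)).comp (inP I n)) (fun a => rfl)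
      (Wk.ep_hom (I := I) (2 * ((t : ℕ) + 1))) hv.mem
    have h3 : m + 2 * ((2 * ((t : ℕ) + 1) : ℕ) : ℤ) = m + (w n t : ℕ) + 1 := by
      rw [w]; push_cast; ring
    rw [h3] at h2
    exact ms_le (by omega) h2
  d0_o := by
    rw [d0_apply]
    exact Finset.sum_eq_zero fun p _ => by rw [ct_one, mul_zero]
  d0_T a v := by
    rw [T_apply, d0_gn]
    rfl
  d0_Φ a v := by
    rw [Φ_apply, Φ_apply, d0_apply, d0_apply, w_mul_sum]
    refine Finset.sum_congr rfl fun p _ => ?_
    rw [ct_inP_mul, ← mul_assoc, ← mul_assoc, inP_comm]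
  d0_X t v := by
    rw [X_apply, d0_gn, X_apply]
    exact zero_sub _
  h_o := by
    rw [h0_apply]
    exact Finset.sum_eq_zero fun p _ => by rw [pd_one, mul_zero]
  h_T a v := by rw [T_apply, h0_gn, T_apply]
  h_Φ a v := by
    rw [Φ_apply, h0_apply, h0_apply, Φ_apply, w_mul_sum]
    have h1 : ∀ p, gn I n (Sum.inl p) * pd I n p (inP I n (MvPolynomial.X a) * v) =
        inP I n (MvPolynomial.X a) * (gn I n (Sum.inl p) * pd I n p v) +
          (if p = a then gn I n (Sum.inl p) * v else 0) := by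
      intro p
      rw [pd_inP_mul, mul_add, add_comm]
      congr 1
      · rw [← mul_assoc, ← mul_assoc, inP_comm]
      · rw [MvPolynomial.pderiv_X]
        by_cases h : p = a
        · subst h; rw [Pi.single_eq_same, map_one, one_mul, if_pos rfl]
        · rw [Pi.single_eq_of_ne (Ne.symm h), map_zero, zero_mul, mul_zero, if_neg h]
    simp only [h1]
    rw [Finset.sum_add_distrib, Finset.sum_ite_eq', if_pos (Finset.mem_univ a)]
    rfl
  h_X t v := by rw [X_apply, h0_gn, X_apply]
  pr_o := map_one (prA I n)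
  pr_T a v := by
    change prA I n (gn I n (Sum.inl a) * v) = 0
    rw [map_mul, prA_gn]
    exact zero_mul _
  pr_Φ a v := by
    change prA I n (inP I n (MvPolynomial.X a) * v) = 0
    rw [map_mul, prA_X]
    exact zero_mul _
  pr_X t v := by
    change prA I n (gn I n (Sum.inr t) * v) = Ex.th t (prA I n v)
    rw [map_mul, prA_gn]
    rfl
  sec_o := map_one (seA I n)
  sec_X t x := by
    change seA I n (Ex.gn t * x) = gn I n (Sum.inr t) * seA I n x
    rw [map_mul, seA_gn]
  pr_sec := pr_se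

theorem prA_zero (x : Wk I 0) : prA I 0 x = algebraMap ℂ (Ex (Fin 0)) (eps I 0 x) := by
  induction x using H273.wk_ind with
  | h1 => rw [map_one, map_one, map_one]
  | ha x y hx hy => rw [map_add, map_add, map_add, hx, hy]
  | hs c x hx => rw [map_smul, map_smul, hx, smul_eq_mul, map_mul, Algebra.smul_def]
  | hg a x hx =>
    rw [map_mul, map_mul, prA_gn, Wk.eps_gn, zero_mul, map_zero]
    rcases a with p | t
    · exact zero_mul _
    · exact t.elim0
  | hp s x hx =>
    have h1 := Wk.eps_Fm (n := 0) s.1 s.2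
    rw [Wk.Fm_apply] at h1
    rw [map_mul, map_mul, prA_X, h1, zero_mul, zero_mul, map_zero]

/-- **The Weil algebra is acyclic.** -/
theorem hex {m : ℤ} {x : Wk I 0} (hx : x ∈ Wk.gr I 0 m) (hd : Wk.d I 0 x = 0)
    (he : Wk.eps I 0 x = 0) : ∃ y ∈ Wk.gr I 0 (m - 1), Wk.d I 0 y = x := by
  obtain ⟨y, hy, _, e⟩ := (koz I 0).exact (v := x) hx (by
    change prA I 0 x = 0
    rw [prA_zero, he, map_zero]) hd
  exact ⟨y, hy, e⟩

end WkM

end

end Vale.Agent.P286.H44
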