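import Vale.Agent.P286.H44.C4b
import Vale.Agent.P286.H103.FrOm

/-!
# The left invariant forms compute the de Rham cohomology of a reductive group

`G` is connected and its Lie algebra is stable under the conjugate transpose.
-/

namespace Vale.Agent.P286.H44

open Vale.Agent.P286.Gen Vale.Agent.P286.H710 Vale.Agent.P286.H847 Vale.Agent.P286.H847.GD
  Vale.Agent.P286.H295 Vale.Agent.P286.H761 Vale.Agent.P286.H103 Matrix

noncomputable section

variable {N : ℕ} {Γ : Gps N}

/-- The Lie algebra is stable under the conjugate transpose. -/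
def Dag (Γ : Gps N) : Prop := ∀ X : Mt N ℂ, IsLi Γ X → IsLi Γ Xᴴ

theorem der_lin {A : Type} [CommRing A] [Algebra ℂ A] {κ : Type} [Fintype κ] (g : Mt N A)
    (c : κ → ℂ) (Y : κ → Mt N ℂ) (D : κ → Derivation ℂ A A)
    (hD : ∀ a, g.map (D a) = cm A (Y a) * g) :
    g.map ⇑(∑ a, c a • D a : Derivation ℂ A A) = cm A (∑ a, c a • Y a) * g := by
  ext i j
  rw [Matrix.map_apply, der_sum, Matrix.mul_apply]
  have h1 : ∀ a ∈ Finset.univ, (c a • D a) (g i j) =
      ∑ k, algebraMap ℂ A (c a) * (algebraMap ℂ A (Y a i k) * g k j) := by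
    intro a _
    have h2 := congrFun (congrFun (hD a) i) j
    rw [Matrix.map_apply, Matrix.mul_apply] at h2
    rw [Derivation.smul_apply, h2, Algebra.smul_def, Finset.mul_sum]
    rfl
  rw [Finset.sum_congr rfl h1, Finset.sum_comm]
  refine Finset.sum_congr rfl fun k _ => ?_
  change _ = algebraMap ℂ A ((∑ a, c a • Y a) i k) * g k j
  rw [Matrix.sum_apply, map_sum, Finset.sum_mul]
  refine Finset.sum_congr rfl fun a _ => ?_
  rw [Matrix.smul_apply, smul_eq_mul, map_mul, mul_assoc]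

theorem der_lin_zero {A : Type} [CommRing A] [Algebra ℂ A] {κ : Type} [Fintype κ]
    (c : κ → ℂ) (D : κ → Derivation ℂ A A) (f : A) (h : ∀ a, D a f = 0) :
    (∑ a, c a • D a : Derivation ℂ A A) f = 0 := by
  rw [der_sum]
  exact Finset.sum_eq_zero fun a _ => by rw [Derivation.smul_apply, h, smul_zero]

theorem rX_lin {κ : Type} [Fintype κ] (c : κ → ℂ) (Y : κ → Mt N ℂ) (hY : ∀ a, IsLi Γ (Y a))
    {X : Mt N ℂ} (hX : IsLi Γ X) (e : X = ∑ a, c a • Y a) :
    rX X hX = ∑ a, c a • rX (Y a) (hY a) := by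
  apply der_ext
  rw [um_map_rX, der_lin (um Γ) c Y (fun a => rX (Y a) (hY a)) (fun a => um_map_rX (hY a)), ← e]

/-- The coefficients of the left invariant forms are constants. -/
theorem mem_LI_iff' (hP : (vanI Γ).IsPrime) {x : Om ℂ (Of Γ)} :
    x ∈ H44.LI (thB hP) ↔ x ∈ H103.LI Γ := by
  constructor
  · intro hx
    induction hx using Submodule.span_induction with
    | mem x hx =>
      obtain ⟨I, rfl⟩ := hx
      exact thE_mem hP I
    | zero => exact Subalgebra.zero_mem _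
    | add x y _ _ hx hy => exact Subalgebra.add_mem _ hx hy
    | smul c x _ hx => exact Subalgebra.smul_mem _ hx c
  · intro hx
    choose c hc using (mem_LI_iff hP).1 hx
    rw [← (thE hP).sum_repr x]
    refine Submodule.sum_mem _ fun s _ => ?_
    rw [hc, cst_smul]
    exact Submodule.smul_mem _ _ (Submodule.subset_span ⟨s, rfl⟩)

/-- **The left invariant forms compute the de Rham cohomology.** -/
theorem qis_left_inv (hP : (vanI Γ).IsPrime) (hd : Dag Γ) {K : GD} (u : Hom K (OmGD (Of Γ)))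
    (hinj : Function.Injective u.f) (hu : ∀ x, u.f x ∈ H103.LI Γ)
    (hs : ∀ m, ∀ x ∈ H103.LI Γ, x ∈ omg (Of Γ) m → ∃ y ∈ K.gr m, u.f y = x) : Qis u := by
  have hb : ∀ a, IsLi Γ (bs Γ a : Mt N ℂ)ᴴ := fun a => hd _ (isLi_bs a)
  let r : Fin (dm Γ) → Derivation ℂ (Of Γ) (Of Γ) := fun a => rX (bs Γ a : Mt N ℂ) (isLi_bs a)
  let r' : Fin (dm Γ) → Derivation ℂ (Of Γ) (Of Γ) := fun a => rX (bs Γ a : Mt N ℂ)ᴴ (hb a)
  have hr : ∀ a, (um Γ).map (r a) = cm (Of Γ) (bs Γ a : Mt N ℂ) * um Γ := fun a => um_map_rX _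
  have hr' : ∀ a, (um Γ).map (r' a) = cm (Of Γ) (bs Γ a : Mt N ℂ)ᴴ * um Γ := fun a => um_map_rX _
  have h1 : Inv r (thB hP) := fun a i => by rw [thB_apply]; exact lie_tho _ _
  have h2 : Inv r' (thB hP) := fun a i => by rw [thB_apply]; exact lie_tho _ _
  have hk : ∀ f, casF r r' f = 0 → ∃ c : ℂ, algebraMap ℂ (Of Γ) c = f := by
    intro f hf
    have h3 := ker_casF hr hr' hf
    have h4 : ∀ i, rX (bs Γ i : Mt N ℂ) (isLi_bs i) f = 0 := by
      intro i
      have h5 : (bs Γ i : Mt N ℂ) =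
          ∑ a, star (coG Γ (bs Γ i : Mt N ℂ)ᴴ a) • (bs Γ a : Mt N ℂ)ᴴ := by
        have h6 := congrArg Matrix.conjTranspose (toG_coG_complex (hb i))
        rw [Matrix.conjTranspose_conjTranspose] at h6
        refine h6.symm.trans ?_
        rw [toG, Matrix.conjTranspose_sum]
        refine Finset.sum_congr rfl fun a _ => ?_
        rw [Matrix.conjTranspose_smul, cm_complex]
      have h7 := rX_lin _ (fun a => (bs Γ a : Mt N ℂ)ᴴ) hb (isLi_bs i) h5
      rw [h7]
      exact der_lin_zero _ _ f h3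
    obtain ⟨c, hc⟩ := const_of_rX hP f h4
    exact ⟨c, hc.symm⟩
  exact qis_of_casimir h1 h2 (isP_casF hr hr') hk u hinj (fun x => (mem_LI_iff' hP).2 (hu x))
    (fun m x hx hx' => hs m x ((mem_LI_iff' hP).1 hx) hx')

/-- The complex of the left invariant forms. -/
def LIg (Γ : Gps N) : GD where
  V := H103.LI Γ
  d := (dL (Of Γ)).restrict (p := Subalgebra.toSubmodule (H103.LI Γ))
    (q := Subalgebra.toSubmodule (H103.LI Γ)) (fun _ hx => H103.d_mem_LI hx)
  dd x := Subtype.ext (Om.d_d x.1)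
  gr m := (omg (Of Γ) m).comap (Subalgebra.toSubmodule (H103.LI Γ)).subtype
  dgr m x hx := (OmGD (Of Γ)).dgr m x.1 hx

/-- The inclusion of the left invariant forms. -/
def LIg.incl (Γ : Gps N) : Hom (LIg Γ) (OmGD (Of Γ)) where
  f := (Subalgebra.toSubmodule (H103.LI Γ)).subtype
  comm _ := rfl
  deg _ _ hx := hx

theorem LIg.qis (hP : (vanI Γ).IsPrime) (hd : Dag Γ) : Qis (LIg.incl Γ) :=
  qis_left_inv hP hd _ Subtype.val_injective (fun x => x.2)
    (fun _ x hx hx' => ⟨⟨x, hx⟩, hx', rfl⟩)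

end

end Vale.Agent.P286.H44
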