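import Vale.Agent.P286.H44.KDop
import Vale.Agent.P286.H44.WkMon

/-!
# The restriction of the Weil algebra of `gl_I` to the Koszul complex of a Lie algebra
-/

namespace Vale.Agent.P286.H44

open TensorProduct Matrix Vale.Agent.P286.H341 Vale.Agent.P286.H166 Vale.Agent.P286.H847

noncomputable section

set_option linter.unusedSectionVars false

/-- The coefficients of the Koszul complex. -/
abbrev MK (n k : ℕ) : Type := KV (Fin n) (MvPolynomial (Fin k) ℂ)

/-- The Koszul complex. -/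
abbrev KK (n k : ℕ) : Type := KV (Fin k) (MK n k)

section Ops

variable {n k : ℕ}

/-- Multiplication by `θ`. -/
def Tk (n : ℕ) (a : Fin k) : Module.End ℂ (KK n k) := tm (Ex.th a) 1

/-- Multiplication by `ξ`. -/
def Xk (k : ℕ) (t : Fin n) : Module.End ℂ (KK n k) := tm Ex.ep (tm (Ex.th t) 1)

theorem tm_one_smul {α M : Type} [Fintype α] [DecidableEq α] [AddCommGroup M] [Module ℂ M] (c : ℂ)
    (T : Module.End ℂ M) : tm (1 : Module.End ℂ (Ex α)) (c • T) = c • tm 1 T := tm_smul _ _ _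

/-- Multiplication by polynomials. -/
def Fk (n k : ℕ) : MvPolynomial (Fin k) ℂ →ₐ[ℂ] Module.End ℂ (KK n k) where
  toFun s := tm 1 (tm 1 (mop s))
  map_one' := by
    rw [show mop (1 : MvPolynomial (Fin k) ℂ) = 1 from LinearMap.mulLeft_one ℂ _, tm_one_one,
      tm_one_one]
  map_mul' s t := by
    rw [show mop (s * t) = mop s * mop t from LinearMap.mulLeft_mul ℂ _ s t, tm_mul, tm_mul,
      one_mul, one_mul]
  map_zero' := by
    rw [show mop (0 : MvPolynomial (Fin k) ℂ) = 0 from LinearMap.mulLeft_zero_eq_zero ℂ _, tm_zero,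
      tm_zero]
  map_add' s t := by
    rw [show mop (s + t) = mop s + mop t from (LinearMap.mul ℂ (MvPolynomial (Fin k) ℂ)).map_add s t,
      tm_add, tm_add]
  commutes' c := by
    rw [show mop (algebraMap ℂ (MvPolynomial (Fin k) ℂ) c) = c • 1 from by
      refine LinearMap.ext fun x => ?_
      change algebraMap ℂ (MvPolynomial (Fin k) ℂ) c * x = c • x
      rw [Algebra.smul_def], tm_one_smul, tm_one_smul, tm_one_one, tm_one_one,
      Algebra.algebraMap_eq_smul_one]

theorem Fk_apply (s : MvPolynomial (Fin k) ℂ) : Fk n k s = tm 1 (tm 1 (mop s)) := rfl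

theorem Tk_Tk (a b : Fin k) : Tk n a * Tk n b = -(Tk n b * Tk n a) := by
  rw [Tk, Tk, tm_mul, tm_mul, Ex.th_th, tm_neg']

theorem Tk_Xk (a : Fin k) (t : Fin n) : Tk n a * Xk k t = -(Xk k t * Tk n a) := by
  rw [Tk, Xk, tm_mul, tm_mul, Ex.ep_th, tm_neg', neg_neg, one_mul, mul_one]

theorem Xk_Xk (s t : Fin n) : Xk k s * Xk k t = -(Xk k t * Xk k s) := by
  rw [Xk, Xk, tm_mul, tm_mul, tm_mul, tm_mul, Ex.th_th, tm_neg', tm_neg]

theorem Tk_Fk (a : Fin k) (s : MvPolynomial (Fin k) ℂ) : Tk n a * Fk n k s = Fk n k s * Tk n a := by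
  rw [Tk, Fk_apply, tm_mul, tm_mul, one_mul, mul_one, one_mul, mul_one]

theorem Xk_Fk (t : Fin n) (s : MvPolynomial (Fin k) ℂ) : Xk k t * Fk n k s = Fk n k s * Xk k t := by
  rw [Xk, Fk_apply, tm_mul, tm_mul, tm_mul, tm_mul, one_mul, mul_one, one_mul, mul_one, one_mul,
    mul_one]

end Ops

section Phi

variable {I : Type} [Fintype I] [DecidableEq I] {n k : ℕ} (e : Fin k → Matrix I I ℂ)

/-- The operators of the odd generators. -/
def gl (n : ℕ) : Gn I n → Module.End ℂ (KK n k) :=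
  Sum.elim (fun p => ∑ a, e a p.1 p.2 • Tk n a) (Xk k)

theorem gl_inl (p : I × I) : gl e n (Sum.inl p) = ∑ a, e a p.1 p.2 • Tk n a := rfl

theorem gl_inr (t : Fin n) : gl e n (Sum.inr t) = Xk k t := rfl

theorem gl_gl (a b : Gn I n) : gl e n a * gl e n b = -(gl e n b * gl e n a) := by
  rcases a with p | t <;> rcases b with q | s
  · rw [gl_inl, gl_inl, Finset.sum_mul_sum, Finset.sum_mul_sum, Finset.sum_comm,
      ← Finset.sum_neg_distrib]
    refine Finset.sum_congr rfl fun a _ => ?_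
    rw [← Finset.sum_neg_distrib]
    refine Finset.sum_congr rfl fun b _ => ?_
    rw [smul_mul_smul_comm, smul_mul_smul_comm, Tk_Tk, smul_neg, mul_comm]
  · rw [gl_inl, gl_inr, Finset.sum_mul, Finset.mul_sum, ← Finset.sum_neg_distrib]
    refine Finset.sum_congr rfl fun a _ => ?_
    rw [smul_mul_assoc, mul_smul_comm, Tk_Xk, smul_neg]
  · rw [gl_inl, gl_inr, Finset.sum_mul, Finset.mul_sum, ← Finset.sum_neg_distrib]
    refine Finset.sum_congr rfl fun a _ => ?_
    rw [smul_mul_assoc, mul_smul_comm, Tk_Xk, smul_neg, neg_neg]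
  · rw [gl_inr, gl_inr, Xk_Xk]

/-- The linear map of the odd generators. -/
def glL (n : ℕ) : (Gn I n → ℂ) →ₗ[ℂ] Module.End ℂ (KK n k) where
  toFun v := ∑ a, v a • gl e n a
  map_add' v w := by
    rw [← Finset.sum_add_distrib]
    exact Finset.sum_congr rfl fun a _ => add_smul _ _ _
  map_smul' c v := by
    rw [RingHom.id_apply, Finset.smul_sum]
    exact Finset.sum_congr rfl fun a _ => (smul_smul _ _ _).symm

theorem glL_apply (v : Gn I n → ℂ) : glL e n v = ∑ a, v a • gl e n a := rfl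

theorem glL_single (a : Gn I n) : glL e n (Pi.single a 1) = gl e n a := by
  rw [glL_apply, Finset.sum_eq_single a, Pi.single_eq_same, one_smul]
  · intro b _ hb
    rw [Pi.single_eq_of_ne hb, zero_smul]
  · intro h; exact absurd (Finset.mem_univ a) h

theorem glL_sq (v : Gn I n → ℂ) : glL e n v * glL e n v = 0 := by
  have h : glL e n v * glL e n v = -(glL e n v * glL e n v) := by
    conv_lhs => rw [glL_apply, Finset.sum_mul_sum, Finset.sum_comm]
    rw [glL_apply, Finset.sum_mul_sum, ← Finset.sum_neg_distrib]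
    refine Finset.sum_congr rfl fun a _ => ?_
    rw [← Finset.sum_neg_distrib]
    refine Finset.sum_congr rfl fun b _ => ?_
    rw [smul_mul_smul_comm, smul_mul_smul_comm, gl_gl, smul_neg, mul_comm]
  have h2 : (2 : ℂ) • (glL e n v * glL e n v) = 0 := by
    rw [two_smul]
    conv_lhs => arg 1; rw [h]
    rw [neg_add_cancel]
  exact (smul_eq_zero.1 h2).resolve_left two_ne_zero

/-- The homomorphism on the exterior algebra. -/
def phL (n : ℕ) : Lm I n →ₐ[ℂ] Module.End ℂ (KK n k) := ExteriorAlgebra.lift ℂ ⟨glL e n, glL_sq e⟩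

theorem phL_ι (v : Gn I n → ℂ) : phL e n (ExteriorAlgebra.ι ℂ v) = glL e n v :=
  ExteriorAlgebra.lift_ι_apply _ _ _ _

theorem phL_comm (l : Lm I n) (s : MvPolynomial (Fin k) ℂ) :
    phL e n l * Fk n k s = Fk n k s * phL e n l := by
  have hg : ∀ a, gl e n a * Fk n k s = Fk n k s * gl e n a := by
    rintro (p | t)
    · rw [gl_inl, Finset.sum_mul, Finset.mul_sum]
      refine Finset.sum_congr rfl fun a _ => ?_
      rw [smul_mul_assoc, mul_smul_comm, Tk_Fk]
    · exact Xk_Fk t s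
  induction l using Ex.ind with
  | h1 => rw [map_one, one_mul, mul_one]
  | hs c x hx => rw [map_smul, smul_mul_assoc, mul_smul_comm, hx]
  | ha x y hx hy => rw [map_add, add_mul, mul_add, hx, hy]
  | hm v x hx =>
    rw [map_mul, mul_assoc, hx, ← mul_assoc, ← mul_assoc, phL_ι, glL_apply]
    congr 1
    rw [Finset.sum_mul, Finset.mul_sum]
    refine Finset.sum_congr rfl fun a _ => ?_
    rw [smul_mul_assoc, mul_smul_comm, hg]

theorem phL_commute (l : Lm I n) (f : Pl I) :
    Commute (phL e n l) (((Fk n k).comp (res e)) f) := phL_comm e l (res e f)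

/-- The action of `Wk` on the Koszul complex. -/
def ph (n : ℕ) : Wk I n →ₐ[ℂ] Module.End ℂ (KK n k) :=
  Algebra.TensorProduct.lift (phL e n) ((Fk n k).comp (res e)) (phL_commute e)

theorem ph_gn (a : Gn I n) : ph e n (Wk.gn I n a) = gl e n a := by
  rw [ph, Wk.gn, Wk.inL, Algebra.TensorProduct.includeLeft_apply, Algebra.TensorProduct.lift_tmul,
    map_one, mul_one, phL_ι, glL_single]

theorem ph_inP (f : Pl I) : ph e n (Wk.inP I n f) = Fk n k (res e f) := by
  rw [ph, Wk.inP, Algebra.TensorProduct.includeRight_apply, Algebra.TensorProduct.lift_tmul,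
    map_one, one_mul]
  rfl

/-- The unit of the Koszul complex. -/
def ok (n k : ℕ) : KK n k := tt 1 (tt 1 1)

/-- **The restriction.** -/
def rs (n : ℕ) : Wk I n →ₗ[ℂ] KK n k := (LinearMap.applyₗ (ok n k)) ∘ₗ (ph e n).toLinearMap

theorem rs_apply (x : Wk I n) : rs e n x = ph e n x (ok n k) := rfl

theorem rs_one : rs e n 1 = ok n k := by rw [rs_apply, map_one]; rfl

theorem rs_mul (x y : Wk I n) : rs e n (x * y) = ph e n x (rs e n y) := by
  rw [rs_apply, map_mul, rs_apply]
  rfl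

theorem rs_gn (a : Gn I n) (x : Wk I n) : rs e n (Wk.gn I n a * x) = gl e n a (rs e n x) := by
  rw [rs_mul, ph_gn]

theorem rs_inP (f : Pl I) (x : Wk I n) : rs e n (Wk.inP I n f * x) = Fk n k (res e f) (rs e n x) := by
  rw [rs_mul, ph_inP]

end Phi

section Diff

variable {I : Type} [Fintype I] [DecidableEq I] {n k : ℕ} {e : Fin k → Matrix I I ℂ}
  {g : Submodule ℂ (Matrix I I ℂ)}

/-- The compatibility of the data of the Koszul complex with the matrices. -/
structure LD (e : Fin k → Matrix I I ℂ) (g : Submodule ℂ (Matrix I I ℂ))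
    (d : SD (stc e) n (MvPolynomial (Fin k) ℂ)) : Prop where
  onb : Onb g e
  lie : ∀ X ∈ g, ∀ Y ∈ g, X * Y - Y * X ∈ g
  r : ∀ a, d.r a = rpd e (e a)
  F : ∀ a, d.F a = MvPolynomial.X a
  y : ∀ t : Fin n, d.y (MvPolynomial.X t) = res e (Wk.ep I (2 * ((t : ℕ) + 1)))

variable {d : SD (stc e) n (MvPolynomial (Fin k) ℂ)} (h : LD e g d)

theorem D_Tk (l : Fin k) : d.kd'.D * Tk n l + Tk n l * d.kd'.D =
    Fk n k (d.F l) - (1 / 2 : ℂ) • ∑ a, ∑ b, stc e a b l • (Tk n a * Tk n b) :=
  D_th d.kd' l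

theorem mop_comm (s t : MvPolynomial (Fin k) ℂ) : mop s * mop t = mop t * mop s := by
  refine LinearMap.ext fun x => ?_
  change s * (t * x) = t * (s * x)
  rw [mul_left_comm]

theorem D_Fk (s : MvPolynomial (Fin k) ℂ) : d.kd'.D * Fk n k s - Fk n k s * d.kd'.D =
    ∑ a, Tk n a * Fk n k (d.r a s) := by
  have h := D_one d.kd' (tm 1 (mop s)) (by
    change d.dl * tm 1 (mop s) = tm 1 (mop s) * d.dl
    rw [SD.dl, Finset.sum_mul, Finset.mul_sum]
    refine Finset.sum_congr rfl fun i _ => ?_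
    rw [tm_mul, tm_mul, one_mul, mul_one, mop_comm]) (fun a => by
    change tm 1 (mop (d.F a)) * tm 1 (mop s) = tm 1 (mop s) * tm 1 (mop (d.F a))
    rw [tm_mul, tm_mul, mop_comm])
  rw [Fk_apply, h]
  refine Finset.sum_congr rfl fun a _ => ?_
  rw [Tk, Fk_apply, tm_mul, one_mul, mul_one]
  congr 1
  change tm 1 (dop (d.r a)) * tm 1 (mop s) - tm 1 (mop s) * tm 1 (dop (d.r a)) = _
  rw [tm_mul, tm_mul, one_mul, ← tm_sub]
  congr 1
  refine LinearMap.ext fun x => ?_
  change d.r a (s * x) - s * d.r a x = d.r a s * x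
  rw [Derivation.leibniz, smul_eq_mul, smul_eq_mul, add_sub_cancel_left, mul_comm]

theorem D_Xk (t : Fin n) : d.kd'.D * Xk k t + Xk k t * d.kd'.D = Fk n k (d.y (MvPolynomial.X t)) := by
  have h := D_ep d.kd' (tm (Ex.th t) 1) (fun a => by
    change tm 1 (dop (d.r a)) * tm (Ex.th t) 1 = tm (Ex.th t) 1 * tm 1 (dop (d.r a))
    rw [tm_mul, tm_mul, one_mul, mul_one, one_mul, mul_one]) (fun a => by
    change tm 1 (mop (d.F a)) * tm (Ex.th t) 1 = tm (Ex.th t) 1 * tm 1 (mop (d.F a))
    rw [tm_mul, tm_mul, one_mul, mul_one, one_mul, mul_one])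
  rw [Xk, h, Fk_apply]
  congr 1
  change d.dl * tm (Ex.th t) 1 + tm (Ex.th t) 1 * d.dl = _
  rw [SD.dl, Finset.sum_mul, Finset.mul_sum, ← Finset.sum_add_distrib, Finset.sum_eq_single t]
  · rw [tm_mul, tm_mul, one_mul, mul_one, ← tm_add', Ex.io_th, if_pos rfl]
  · intro i _ hi
    rw [tm_mul, tm_mul, one_mul, mul_one, ← tm_add', Ex.io_th, if_neg hi, tm_zero']
  · intro h; exact absurd (Finset.mem_univ t) h

theorem D_ok : d.kd'.D (ok n k) = 0 := by
  refine D_tt_one d.kd' _ (fun a => ?_) ?_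
  · change tm 1 (dop (d.r a)) (tt 1 1) = 0
    have h : dop (d.r a) 1 = 0 := (d.r a).map_one_eq_zero
    rw [tm_tt, h, KV.tt_zero']
  · change d.dl (tt 1 1) = 0
    rw [SD.dl_tt]
    exact Finset.sum_eq_zero fun i _ => by rw [Ex.io_one, KV.tt_zero]

include h

/-- The generic matrix. -/
theorem LD.r_res (a : Fin k) (i j : I) : d.r a (res e (MvPolynomial.X (i, j))) =
    ∑ l, (res e (MvPolynomial.X (i, l)) * MvPolynomial.C (e a l j) -
      MvPolynomial.C (e a i l) * res e (MvPolynomial.X (l, j))) := by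
  rw [h.r, res_X, map_sum]
  have h1 : ∀ b, rpd e (e a) (MvPolynomial.C (e b i j) * MvPolynomial.X b) =
      ∑ c, MvPolynomial.C (adm e (e a) c b * e b i j) * MvPolynomial.X c := by
    intro b
    rw [Derivation.leibniz, ← MvPolynomial.algebraMap_eq, Derivation.map_algebraMap, smul_zero,
      add_zero, rpd, lvf_X, smul_eq_mul, Finset.mul_sum]
    refine Finset.sum_congr rfl fun c _ => ?_
    rw [MvPolynomial.smul_eq_C_mul, ← mul_assoc, MvPolynomial.algebraMap_eq, ← MvPolynomial.C_mul,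
      mul_comm (e b i j)]
  simp only [h1]
  rw [Finset.sum_comm]
  have h2 : ∀ c, ∑ b, MvPolynomial.C (adm e (e a) c b * e b i j) * MvPolynomial.X c =
      (MvPolynomial.C ((e c * e a - e a * e c) i j) * MvPolynomial.X c :
        MvPolynomial (Fin k) ℂ) := by
    intro c
    rw [← Finset.sum_mul, ← map_sum]
    congr 2
    conv_rhs => rw [h.onb.exp _ (h.lie _ (h.onb.mem c) _ (h.onb.mem a))]
    rw [Matrix.sum_apply]
    exact Finset.sum_congr rfl fun b _ => rfl
  simp only [h2, Matrix.sub_apply, Matrix.mul_apply]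
  rw [Finset.sum_sub_distrib]
  simp only [map_sub, map_sum, sub_mul, Finset.sum_mul, Finset.sum_sub_distrib, res_X,
    Finset.mul_sum, map_mul]
  congr 1
  · rw [Finset.sum_comm]
    refine Finset.sum_congr rfl fun l _ => Finset.sum_congr rfl fun c _ => ?_
    ring
  · rw [Finset.sum_comm]
    refine Finset.sum_congr rfl fun l _ => Finset.sum_congr rfl fun c _ => ?_
    ring

end Diff

end

end Vale.Agent.P286.H44
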