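import Vale.Agent.P286.H44.OmGD

/-!
# The forms which are killed by the Casimir operator

`θ` is a basis of the one-forms over `A` which consists of forms killed by the Lie derivatives along
the fields `r a`, `r' a`, and the only functions killed by `∑ r a ∘ r' a` are the constants.  Then the
complex span `LI θ` of the products of the `θ i` is a subcomplex of the de Rham complex, and its
inclusion is a quasi-isomorphism.
-/

namespace Vale.Agent.P286.H44

open Vale.Agent.P286.H710 Vale.Agent.P286.H847 Vale.Agent.P286.H847.GD Vale.Agent.P286.H761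
  KaehlerDifferential

noncomputable section

variable {A : Type} [CommRing A] [Algebra ℂ A]
variable {κ : Type} [Fintype κ] (r r' : κ → Derivation ℂ A A)
variable {ι : Type} [Fintype ι] [LinearOrder ι] (θ : Module.Basis ι A (Ω[A⁄ℂ]))

/-- The forms `θ i` are killed by the Lie derivatives along the fields `r a`. -/
def Inv : Prop := ∀ a i, Om.lie (r a) (ExteriorAlgebra.ι A (θ i)) = 0

variable {r r' θ}

theorem cas_sum (h : Inv r θ) (h' : Inv r' θ) (x : Om ℂ A) :
    cas r r' x = ∑ I, casF r r' (θ.ExteriorAlgebra.repr x I) • θ.ExteriorAlgebra I := by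
  conv_lhs => rw [← θ.ExteriorAlgebra.sum_repr x]
  rw [map_sum]
  refine Finset.sum_congr rfl fun I _ => ?_
  exact cas_smul r r' (fun a => lie_basis θ _ (h a) I) (fun a => lie_basis θ _ (h' a) I) _

omit [Fintype ι] in
theorem cas_LI (h : Inv r θ) (h' : Inv r' θ) {x : Om ℂ A} (hx : x ∈ LI θ) : cas r r' x = 0 := by
  induction hx using Submodule.span_induction with
  | mem x hx =>
    obtain ⟨I, rfl⟩ := hx
    have := cas_smul r r' (x := θ.ExteriorAlgebra I) (fun a => lie_basis θ _ (h a) I)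
      (fun a => lie_basis θ _ (h' a) I) 1
    rw [one_smul] at this
    rw [this, casF_apply]
    simp
  | zero => exact map_zero _
  | add x y _ _ hx hy => rw [map_add, hx, hy, add_zero]
  | smul c x _ hx => rw [map_smul, hx, smul_zero]

theorem mem_LI_of_cas (h : Inv r θ) (h' : Inv r' θ)
    (hk : ∀ f, casF r r' f = 0 → ∃ c : ℂ, algebraMap ℂ A c = f) {x : Om ℂ A}
    (hx : cas r r' x = 0) : x ∈ LI θ := by
  have h1 : ∀ I, casF r r' (θ.ExteriorAlgebra.repr x I) = 0 := by
    intro I
    have h2 := congrArg (fun y => θ.ExteriorAlgebra.repr y) ((cas_sum h h' x).symm.trans hx)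
    have h3 := congrFun (congrArg DFunLike.coe h2) I
    rw [Module.Basis.repr_sum_self, map_zero] at h3
    exact h3
  rw [← θ.ExteriorAlgebra.sum_repr x]
  refine Submodule.sum_mem _ fun I _ => ?_
  obtain ⟨c, hc⟩ := hk _ (h1 I)
  rw [← hc, algebraMap_smul]
  exact Submodule.smul_mem _ _ (Submodule.subset_span ⟨I, rfl⟩)

theorem isP_cas (h : Inv r θ) (h' : Inv r' θ) (hP : IsP (casF r r')) : IsP (cas r r') := by
  let f : Finset ι → A →ₗ[ℂ] Om ℂ A := fun I =>
    ((LinearMap.toSpanSingleton A (Om ℂ A) (θ.ExteriorAlgebra I)).restrictScalars ℂ)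
  refine IsP.of_span (C := fun _ : Finset ι => casF r r') (fun _ => hP) f ?_ ?_
  · intro I a
    exact (cas_smul r r' (fun a => lie_basis θ _ (h a) I) (fun a => lie_basis θ _ (h' a) I)
      a).symm
  · rw [eq_top_iff]
    intro x _
    rw [← θ.ExteriorAlgebra.sum_repr x]
    exact Submodule.sum_mem _ fun I _ => Submodule.mem_iSup_of_mem I ⟨_, rfl⟩

/-- The de Rham complex and the invariant forms. -/
theorem qis_of_casimir (h : Inv r θ) (h' : Inv r' θ) (hP : IsP (casF r r'))
    (hk : ∀ f, casF r r' f = 0 → ∃ c : ℂ, algebraMap ℂ A c = f) {K : GD}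
    (u : Hom K (OmGD A)) (hinj : Function.Injective u.f) (hu : ∀ x, u.f x ∈ LI θ)
    (hs : ∀ m, ∀ x ∈ LI θ, x ∈ omg A m → ∃ y ∈ K.gr m, u.f y = x) : Qis u :=
  qis_of_ker u (cash r r') (cas r r') (fun m _ hx => cash_mem r r' m hx) (cas_eq r r')
    (isP_cas h h' hP) (fun _ _ e => hinj e) (fun x => cas_LI h h' (hu x))
    (fun m x hx hx0 => hs m x (mem_LI_of_cas h h' hk hx0) hx)

/-- The invariant forms are stable under the differential. -/
theorem d_mem_LI (h : Inv r θ) (h' : Inv r' θ)
    (hk : ∀ f, casF r r' f = 0 → ∃ c : ℂ, algebraMap ℂ A c = f) {x : Om ℂ A} (hx : x ∈ LI θ) :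
    Om.d x ∈ LI θ := by
  apply mem_LI_of_cas h h' hk
  have h1 := comm_d (d := dL A) (h := cash r r') (C := cas r r') Om.d_d (cas_eq r r') x
  rw [cas_LI h h' hx, map_zero] at h1
  exact h1.symm

/-- The complex of the invariant forms. -/
def LIGD (h : Inv r θ) (h' : Inv r' θ)
    (hk : ∀ f, casF r r' f = 0 → ∃ c : ℂ, algebraMap ℂ A c = f) : GD where
  V := LI θ
  d := (dL A).restrict (p := LI θ) (q := LI θ) (fun _ hx => d_mem_LI h h' hk hx)
  dd x := Subtype.ext (Om.d_d x.1)
  gr m := (omg A m).comap (LI θ).subtype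
  dgr m x hx := (OmGD A).dgr m x.1 hx

/-- The inclusion of the invariant forms. -/
def LIGD.incl (h : Inv r θ) (h' : Inv r' θ)
    (hk : ∀ f, casF r r' f = 0 → ∃ c : ℂ, algebraMap ℂ A c = f) :
    Hom (LIGD h h' hk) (OmGD A) where
  f := (LI θ).subtype
  comm _ := rfl
  deg _ _ hx := hx

theorem LIGD.qis (h : Inv r θ) (h' : Inv r' θ) (hP : IsP (casF r r'))
    (hk : ∀ f, casF r r' f = 0 → ∃ c : ℂ, algebraMap ℂ A c = f) : Qis (LIGD.incl h h' hk) :=
  qis_of_casimir h h' hP hk _ Subtype.val_injective (fun x => x.2)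
    (fun _ x hx hx' => ⟨⟨x, hx⟩, hx', rfl⟩)

end

end Vale.Agent.P286.H44
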