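import Vale.Agent.P286.H44.C4a
import Vale.Agent.P286.H166.Cas3
import Vale.Agent.P286.H295.Smo

/-!
# The Casimir operator on the coordinate ring of a linear algebraic group

`r a` are the fields `x ↦ E a * x` on the group and `r' a` the fields `x ↦ (E a)ᴴ * x`.
-/

namespace Vale.Agent.P286.H44

open Vale.Agent.P286.Gen Vale.Agent.P286.H166 Vale.Agent.P286.H295 Vale.Agent.P286.H761
  MvPolynomial Matrix

noncomputable section

variable {N : ℕ} {Γ : Gps N}

/-- The matrix of the linear vector field `x ↦ X * x` on the space of matrices. -/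
def mR (X : Mt N ℂ) : Matrix (Fin N × Fin N) (Fin N × Fin N) ℂ :=
  Matrix.of fun i j => if i.2 = j.2 then X j.1 i.1 else 0

theorem mR_conjTranspose (X : Mt N ℂ) : (mR X)ᴴ = mR Xᴴ := by
  ext i j
  simp only [mR, Matrix.conjTranspose_apply, Matrix.of_apply]
  by_cases h : i.2 = j.2
  · rw [if_pos h.symm, if_pos h]
  · rw [if_neg (Ne.symm h), if_neg h, star_zero]

theorem lvf_mR (X : Mt N ℂ) (p q : Fin N) :
    lvf (mR X) (MvPolynomial.X (p, q)) = ∑ k, X p k • MvPolynomial.X (k, q) := by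
  rw [lvf_X, Fintype.sum_prod_type]
  refine Finset.sum_congr rfl fun k _ => ?_
  rw [Finset.sum_eq_single q]
  · simp [mR]
  · intro l _ hl
    simp [mR, hl]
  · intro h; exact absurd (Finset.mem_univ q) h

/-- A field on the group given by a linear vector field. -/
theorem mk_lvf (D : Derivation ℂ (Of Γ) (Of Γ)) (X : Mt N ℂ)
    (hD : (um Γ).map D = cm (Of Γ) X * um Γ) (P : Pl N) :
    Ideal.Quotient.mk (vanI Γ) (lvf (mR X) P) = D (Ideal.Quotient.mk (vanI Γ) P) := by
  induction P using MvPolynomial.induction_on with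
  | C a =>
    rw [← MvPolynomial.algebraMap_eq, Derivation.map_algebraMap, map_zero]
    exact (D.map_algebraMap a).symm
  | add P Q hP hQ => rw [map_add, map_add, hP, hQ, map_add, map_add]
  | mul_X P i hP =>
    rw [Derivation.leibniz, map_add, map_mul, Derivation.leibniz, smul_eq_mul, smul_eq_mul,
      smul_eq_mul, smul_eq_mul, map_mul, map_mul, hP]
    congr 2
    obtain ⟨p, q⟩ := i
    rw [lvf_mR, map_sum]
    have h := congrFun (congrFun hD p) q
    rw [Matrix.map_apply, Matrix.mul_apply] at h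
    refine Eq.trans ?_ h.symm
    refine Finset.sum_congr rfl fun k _ => ?_
    rw [MvPolynomial.smul_eq_C_mul, map_mul]
    rfl

variable {κ : Type} [Fintype κ] {E : κ → Mt N ℂ} {r r' : κ → Derivation ℂ (Of Γ) (Of Γ)}

/-- The quotient map as a linear map. -/
def mkL (Γ : Gps N) : Pl N →ₗ[ℂ] Of Γ := (Ideal.Quotient.mkₐ ℂ (vanI Γ)).toLinearMap

theorem mkL_cas (hr : ∀ a, (um Γ).map (r a) = cm (Of Γ) (E a) * um Γ)
    (hr' : ∀ a, (um Γ).map (r' a) = cm (Of Γ) (E a)ᴴ * um Γ) (P : Pl N) :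
    mkL Γ (casP (fun a => mR (E a)) P) = casF r r' (mkL Γ P) := by
  rw [casP_apply, map_sum, casF_apply]
  refine Finset.sum_congr rfl fun a _ => ?_
  rw [mR_conjTranspose]
  exact (mk_lvf (r a) (E a) (hr a) _).trans (congrArg (r a) (mk_lvf (r' a) _ (hr' a) P))

/-- Property (P) of the Casimir operator on functions. -/
theorem isP_casF (hr : ∀ a, (um Γ).map (r a) = cm (Of Γ) (E a) * um Γ)
    (hr' : ∀ a, (um Γ).map (r' a) = cm (Of Γ) (E a)ᴴ * um Γ) : IsP (casF r r') := by
  have h1 : IsP (casP fun a => mR (E a)) := by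
    intro P
    obtain ⟨q, s, h, hq⟩ := ok_casP (fun a => mR (E a)) P
    refine ⟨q, ?_, hq⟩
    have := congrArg (Polynomial.eval 0) h
    simp at this
    rw [← this]
    exact one_ne_zero
  exact h1.of_surjective (mkL Γ) (Ideal.Quotient.mkₐ_surjective ℂ (vanI Γ)) (mkL_cas hr hr')

/-- The kernel of the Casimir operator on functions. -/
theorem ker_casF (hr : ∀ a, (um Γ).map (r a) = cm (Of Γ) (E a) * um Γ)
    (hr' : ∀ a, (um Γ).map (r' a) = cm (Of Γ) (E a)ᴴ * um Γ) {f : Of Γ}
    (hf : casF r r' f = 0) (a : κ) : r' a f = 0 := by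
  have h1 : IsP (casP fun a => mR (E a)) := by
    intro P
    obtain ⟨q, s, h, hq⟩ := ok_casP (fun a => mR (E a)) P
    refine ⟨q, ?_, hq⟩
    have := congrArg (Polynomial.eval 0) h
    simp at this
    rw [← this]
    exact one_ne_zero
  obtain ⟨P, hP, rfl⟩ := h1.ker_surjective (mkL Γ) (Ideal.Quotient.mkₐ_surjective ℂ (vanI Γ))
    (mkL_cas hr hr') hf
  have h2 := lvf_eq_zero_of_casP _ hP a
  have h3 := mk_lvf (r' a) _ (hr' a) P
  rw [← mR_conjTranspose, h2, map_zero] at h3
  exact h3.symm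

end

end Vale.Agent.P286.H44
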