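import Mathlib

/-!
# Chevalley's restriction theorem for `sp_{2n}` and `so_{2n+1}`: injectivity of the restriction

The index set is `Ix n K = Fin n ⊕ Fin n ⊕ K`, where `K` is empty for `sp_{2n}` and has one element
for `so_{2n+1}`; the Lie algebra is
`g = {X | X i j = - ε_i ε_j X j' i'}`, where `i ↦ i'` is the involution `iv` and `ε` is `ep e`, with
`e = -1` for `sp` and `e = 1` for `so`.
-/

namespace Vale.Agent.P286.H44

open MvPolynomial Matrix

noncomputable section

/-- The index set. -/
abbrev Ix (n : ℕ) (K : Type) : Type := (Fin n ⊕ Fin n) ⊕ K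

variable {n : ℕ} {K : Type} {e : ℂ}

/-- The involution of the index set. -/
def iv : Ix n K → Ix n K
  | .inl (.inl k) => .inl (.inr k)
  | .inl (.inr k) => .inl (.inl k)
  | .inr k => .inr k

/-- The signs. -/
def ep (e : ℂ) : Ix n K → ℂ
  | .inl (.inl _) => 1
  | .inl (.inr _) => e
  | .inr _ => 1

/-- Type `C` (`K` empty, `e = -1`) or type `B` (`K` has one element, `e = 1`). -/
class TypeBC (K : Type) (e : ℂ) : Prop where
  sub : Subsingleton K
  cases : (e = 1 ∧ Nonempty K) ∨ (e = -1 ∧ IsEmpty K)

@[simp] theorem iv_iv (i : Ix n K) : iv (iv i) = i := by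
  rcases i with (i | i) | i <;> rfl

theorem iv_inj {i j : Ix n K} (h : iv i = iv j) : i = j := by
  rw [← iv_iv i, h, iv_iv]

theorem iv_eq_iff {i j : Ix n K} : iv i = j ↔ i = iv j := by
  constructor
  · rintro rfl; rw [iv_iv]
  · rintro rfl; rw [iv_iv]

theorem ep_sq [h : TypeBC K e] (i : Ix n K) : ep e i * ep e i = 1 := by
  rcases h.cases with ⟨rfl, _⟩ | ⟨rfl, _⟩ <;> rcases i with (i | i) | i <;> simp [ep]

theorem ep_iv [h : TypeBC K e] (i j : Ix n K) : ep e (iv i) * ep e (iv j) = ep e i * ep e j := by
  rcases h.cases with ⟨rfl, _⟩ | ⟨rfl, hK⟩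
  · rcases i with (i | i) | i <;> rcases j with (j | j) | j <;> simp [ep, iv]
  · rcases i with (i | i) | i <;> rcases j with (j | j) | j <;>
      first | exact hK.elim i | exact hK.elim j | simp [ep, iv]

/-- If `i' = i` and `j' = j` then `i = j`. -/
theorem eq_of_iv (h : Subsingleton K) {i j : Ix n K} (hi : iv i = i) (hj : iv j = j) : i = j := by
  rcases i with (i | i) | i <;> rcases j with (j | j) | j <;> simp [iv] at hi hj ⊢
  exact Subsingleton.elim _ _

/-- The pairs of indices. -/
abbrev Pr (n : ℕ) (K : Type) : Type := Ix n K × Ix n K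

/-- The involution of the set of pairs. -/
def sw (u : Pr n K) : Pr n K := (iv u.2, iv u.1)

@[simp] theorem sw_sw (u : Pr n K) : sw (sw u) = u := by simp [sw]

/-- The sign of the pair. -/
def cc (e : ℂ) (u : Pr n K) : ℂ := -(ep e u.1 * ep e u.2)

theorem cc_sw [TypeBC K e] (u : Pr n K) : cc e (sw u) = cc e u := by
  simp only [cc, sw, ep_iv]; rw [mul_comm]

theorem cc_sq [TypeBC K e] (u : Pr n K) : cc e u * cc e u = 1 := by
  simp only [cc]
  linear_combination (ep e u.2 * ep e u.2) * ep_sq (e := e) u.1 + ep_sq (e := e) u.2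

/-- The polynomials on the space of matrices. -/
abbrev Rg (n : ℕ) (K : Type) : Type := MvPolynomial (Pr n K) ℂ

/-- The generic matrix. -/
def gX (n : ℕ) (K : Type) : Matrix (Ix n K) (Ix n K) (Rg n K) := Matrix.of fun i j => X (i, j)

/-- The Lie algebra. -/
def IsG (e : ℂ) (A : Matrix (Ix n K) (Ix n K) ℂ) : Prop :=
  ∀ i j, A i j = -(ep e i * ep e j) * A (iv j) (iv i)

/-- The restriction of a polynomial to the Lie algebra, composed with the projection. -/
def pG (e : ℂ) (n : ℕ) (K : Type) : Rg n K →ₐ[ℂ] Rg n K :=
  aeval fun u => C (1 / 2) * (X u + C (cc e u) * X (sw u))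

theorem pG_X (u : Pr n K) : pG e n K (X u) = C (1 / 2) * (X u + C (cc e u) * X (sw u)) :=
  aeval_X _ _

variable [Fintype K]

/-- The commutator of a constant matrix with the generic matrix. -/
def cX (A : Matrix (Ix n K) (Ix n K) ℂ) : Matrix (Ix n K) (Ix n K) (Rg n K) :=
  A.map (C : ℂ → Rg n K) * gX n K - gX n K * A.map (C : ℂ → Rg n K)

/-- The action of the matrix `A` on the polynomials on the space of matrices: the derivation
`X ↦ A X - X A`. -/
def Dg (A : Matrix (Ix n K) (Ix n K) ℂ) : Derivation ℂ (Rg n K) (Rg n K) :=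
  mkDerivation ℂ fun u => cX A u.1 u.2

theorem Dg_X (A : Matrix (Ix n K) (Ix n K) ℂ) (u : Pr n K) : Dg A (X u) = cX A u.1 u.2 :=
  mkDerivation_X _ _ _

theorem cX_apply (A : Matrix (Ix n K) (Ix n K) ℂ) (i j : Ix n K) :
    cX A i j = ∑ k, (C (A i k) * X (k, j) - C (A k j) * X (i, k)) := by
  simp only [cX, gX, Matrix.sub_apply, Matrix.mul_apply, Matrix.map_apply, Matrix.of_apply,
    Finset.sum_sub_distrib]
  congr 1
  exact Finset.sum_congr rfl fun k _ => mul_comm _ _

variable [DecidableEq K]

theorem sum_der_apply {σ ι : Type} (s : Finset ι)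
    (f : ι → Derivation ℂ (MvPolynomial σ ℂ) (MvPolynomial σ ℂ)) (x : MvPolynomial σ ℂ) :
    (∑ i ∈ s, f i) x = ∑ i ∈ s, f i x := by
  rw [← Derivation.coeFnAddMonoidHom_apply, map_sum, Finset.sum_apply]
  rfl

/-- Derivations are combinations of partial derivatives. -/
theorem der_eq_sum {σ : Type} [Fintype σ] [DecidableEq σ]
    (D : Derivation ℂ (MvPolynomial σ ℂ) (MvPolynomial σ ℂ)) (F : MvPolynomial σ ℂ) :
    D F = ∑ u, D (X u) * pderiv u F := by
  have h : D = ∑ u, D (X u) • pderiv (R := ℂ) u := by
    apply MvPolynomial.derivation_ext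
    intro v
    rw [sum_der_apply]
    simp only [Derivation.coe_smul, Pi.smul_apply, pderiv_X, Pi.single_apply, smul_eq_mul,
      mul_ite, mul_one, mul_zero]
    simp
  conv_lhs => rw [h]
  rw [sum_der_apply]
  simp

/-- The weight: the number of off-diagonal entries. -/
def wt (u : Pr n K) : ℕ := if u.1 = u.2 then 0 else 1

/-- The component of weight `a` of `x_u ∂_v F`. -/
theorem comp_X_mul_pderiv {σ : Type} [Fintype σ] [DecidableEq σ] (w : σ → ℕ) (u v : σ) (a : ℕ)
    (F : MvPolynomial σ ℂ) (m : ℕ) (hF : ∀ k < m, weightedHomogeneousComponent w k F = 0)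
    (ha : a + w v ≤ m + w u) :
    weightedHomogeneousComponent w a (X u * pderiv v F) =
      if a + w v = m + w u then X u * pderiv v (weightedHomogeneousComponent w m F) else 0 := by
  classical
  have hc : ∀ d : σ →₀ ℕ, Finsupp.weight w d < m → coeff d F = 0 := by
    intro d hd
    have := congrArg (coeff d) (hF _ hd)
    rwa [coeff_weightedHomogeneousComponent, if_pos rfl, coeff_zero] at this
  ext d
  rw [coeff_weightedHomogeneousComponent, coeff_X_mul']
  by_cases hu : u ∈ d.support
  · have hd1 : d - Finsupp.single u 1 + Finsupp.single u 1 = d :=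
      tsub_add_cancel_of_le (by
        rw [Finsupp.single_le_iff]
        exact Nat.one_le_iff_ne_zero.2 (Finsupp.mem_support_iff.1 hu))
    have hw : Finsupp.weight w (d - Finsupp.single u 1) + w u = Finsupp.weight w d := by
      conv_rhs => rw [← hd1]
      rw [map_add]; simp [Finsupp.weight_single]
    have hw2 : Finsupp.weight w (d - Finsupp.single u 1 + Finsupp.single v 1) + w u =
        Finsupp.weight w d + w v := by
      rw [map_add]; simp [Finsupp.weight_single]; omega
    rw [if_pos hu, coeff_pderiv]
    split_ifs with h1 h2 h2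
    · rw [coeff_X_mul', if_pos hu, coeff_pderiv, coeff_weightedHomogeneousComponent,
        if_pos (by omega)]
    · rw [hc _ (by omega)]; simp
    · rw [coeff_X_mul', if_pos hu, coeff_pderiv, coeff_weightedHomogeneousComponent,
        if_neg (by omega)]; simp
    · simp
  · rw [if_neg hu]
    split_ifs with h1 h2 h2
    · rw [coeff_X_mul', if_neg hu]
    · simp
    · rw [coeff_X_mul', if_neg hu]
    · simp

/-- The leading part of the action of a matrix with zero diagonal. -/
theorem comp_Dg (A : Matrix (Ix n K) (Ix n K) ℂ) (hA : ∀ i, A i i = 0) (F : Rg n K) (m : ℕ)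
    (hF : ∀ k < m + 1, weightedHomogeneousComponent wt k F = 0) :
    weightedHomogeneousComponent wt m (Dg A F) =
      ∑ u : Pr n K, C (A u.1 u.2) * ((X (u.2, u.2) - X (u.1, u.1)) *
        pderiv u (weightedHomogeneousComponent wt (m + 1) F)) := by
  rw [der_eq_sum, map_sum]
  refine Finset.sum_congr rfl fun u _ => ?_
  obtain ⟨i, j⟩ := u
  rw [Dg_X]
  simp only [cX_apply, Finset.sum_mul, map_sum, sub_mul, map_sub, mul_assoc,
    weightedHomogeneousComponent_C_mul, Finset.sum_sub_distrib]
  have key : ∀ u v : Pr n K, weightedHomogeneousComponent wt m (X u * pderiv v F) =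
      if wt u = 0 ∧ wt v = 1 then X u * pderiv v (weightedHomogeneousComponent wt (m + 1) F)
      else 0 := by
    intro u v
    have h1 : wt u ≤ 1 := by unfold wt; split_ifs <;> simp
    have h2 : wt v ≤ 1 := by unfold wt; split_ifs <;> simp
    rw [comp_X_mul_pderiv wt u v m F (m + 1) hF (by omega)]
    by_cases h : wt u = 0 ∧ wt v = 1
    · rw [if_pos h, if_pos (by omega)]
    · rw [if_neg h, if_neg (by omega)]
  simp only [key]
  by_cases hij : i = j
  · subst hij
    have : wt ((i, i) : Pr n K) = 0 := by simp [wt]
    simp [this, hA]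
  · have h0 : wt ((i, j) : Pr n K) = 1 := by simp [wt, hij]
    have h1 : ∀ k, wt ((k, j) : Pr n K) = 0 ↔ k = j := by intro k; simp [wt]
    have h2 : ∀ k, wt ((i, k) : Pr n K) = 0 ↔ i = k := by intro k; simp [wt]
    simp [h0, h1, h2, mul_sub]

omit [Fintype K] [DecidableEq K] in
/-- Partial derivatives and homogeneous components. -/
theorem comp_pderiv {σ : Type} (w : σ → ℕ) (v : σ) (a : ℕ) (F : MvPolynomial σ ℂ) :
    weightedHomogeneousComponent w a (pderiv v F) =
      pderiv v (weightedHomogeneousComponent w (a + w v) F) := by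
  classical
  ext d
  have hw : Finsupp.weight w (d + Finsupp.single v 1) = Finsupp.weight w d + w v := by
    rw [map_add]; simp [Finsupp.weight_single]
  rw [coeff_weightedHomogeneousComponent, coeff_pderiv, coeff_pderiv,
    coeff_weightedHomogeneousComponent, hw]
  simp only [add_left_inj, ite_mul, zero_mul]

omit [Fintype K] in
/-- The polynomials on the Lie algebra: symmetry of the partial derivatives. -/
theorem pderiv_pG [TypeBC K e] (F : Rg n K) (v : Pr n K) :
    pderiv (sw v) (pG e n K F) = C (cc e v) * pderiv v (pG e n K F) := by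
  induction F using MvPolynomial.induction_on with
  | C a => simp
  | add p q hp hq => simp only [map_add, hp, hq, mul_add]
  | mul_X p u hp =>
    have key : pderiv (sw v) (pG e n K (X u)) = C (cc e v) * pderiv v (pG e n K (X u)) := by
      rw [pG_X]
      simp only [pderiv_C_mul, map_add, pderiv_X, Pi.single_apply]
      have h1 : (u = sw v) ↔ (sw u = v) := by
        constructor
        · rintro rfl; exact sw_sw v
        · rintro rfl; exact (sw_sw u).symm
      have h2 : (sw u = sw v) ↔ (u = v) := by
        constructor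
        · intro h; rw [← sw_sw u, h, sw_sw]
        · rintro rfl; rfl
      simp only [h1, h2]
      by_cases ha : u = v
      · subst ha
        by_cases hb : sw u = u
        · simp only [hb, if_true, mul_one]
          have := cc_sq (n := n) (K := K) (e := e) u
          rw [mul_left_comm (C (cc e u))]
          congr 1
          rw [mul_add, mul_one, ← C_mul, this, C_1, add_comm]
        · simp only [hb, if_false, if_true, mul_zero, mul_one, add_zero, zero_add]
          rw [mul_comm]
      · by_cases hb : sw u = v
        · subst hb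
          simp only [ha, if_false, if_true, mul_zero, mul_one, add_zero, zero_add]
          rw [cc_sw, mul_left_comm, ← C_mul, cc_sq, C_1, mul_one]
        · simp [ha, hb]
    rw [map_mul, pderiv_mul, pderiv_mul, hp, key]
    ring

/-- The linear form `x_jj - x_ii` is not zero. -/
theorem lin_ne [h : TypeBC K e] {p q : Ix n K} (hpq : p ≠ q) :
    (X (q, q) - X (p, p) + (X (iv p, iv p) - X (iv q, iv q)) : Rg n K) ≠ 0 := by
  intro h0
  have hev := fun f : Pr n K → ℂ => congrArg (MvPolynomial.eval f) h0
  simp only [map_add, map_sub, eval_X, map_zero] at hev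
  by_cases hq : iv q = q
  · have hp : iv p ≠ p := fun hp => hpq (eq_of_iv h.sub hp hq)
    have := hev (fun u => if u.1 = p then 1 else 0)
    have h1 : iv p ≠ q := fun h1 => hpq (by rw [← iv_iv p, h1, hq])
    simp [hq, hp, Ne.symm hpq] at this
  · have := hev (fun u => if u.1 = q then 1 else 0)
    have h1 : (iv p = q) → p ≠ q := fun _ => hpq
    simp only [if_true, hpq, if_false, hq, sub_zero] at this
    split_ifs at this <;> norm_num at this

/-- A polynomial on the Lie algebra which is invariant and vanishes on the diagonal matrices is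
zero. -/
theorem eq_zero_of_diag [TypeBC K e] (F : Rg n K) (hp : pG e n K F = F)
    (hD : ∀ A, IsG e A → Dg A F = 0) (h0 : weightedHomogeneousComponent wt 0 F = 0) : F = 0 := by
  have key : ∀ m, ∀ k < m + 1, weightedHomogeneousComponent (wt (n := n) (K := K)) k F = 0 := by
    intro m
    induction m with
    | zero =>
      intro k hk
      obtain rfl : k = 0 := by omega
      exact h0
    | succ m ih =>
      intro k hk
      by_cases hk' : k < m + 1
      · exact ih k hk'
      obtain rfl : k = m + 1 := by omega
      set G := weightedHomogeneousComponent (wt (n := n) (K := K)) (m + 1) F with hG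
      have hd : ∀ u : Pr n K, u.1 ≠ u.2 → pderiv u G = 0 := by
        rintro ⟨p, q⟩ hpq
        simp only at hpq
        have hpq' : iv q ≠ iv p := fun h => hpq (iv_inj h).symm
        have hw : wt ((p, q) : Pr n K) = 1 := by simp [wt, hpq]
        have hw' : wt (sw (p, q) : Pr n K) = 1 := by simp [wt, sw, hpq']
        have hsym : pderiv (sw (p, q)) G = C (cc e (p, q)) * pderiv (p, q) G := by
          have h1 := pderiv_pG (e := e) F (p, q)
          rw [hp] at h1
          have h2 := congrArg (weightedHomogeneousComponent (wt (n := n) (K := K)) m) h1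
          rwa [weightedHomogeneousComponent_C_mul, comp_pderiv, comp_pderiv, hw, hw', ← hG] at h2
        set A : Matrix (Ix n K) (Ix n K) ℂ :=
          Matrix.single p q 1 + Matrix.single (iv q) (iv p) (cc e (p, q)) with hA
        have hAG : IsG e A := by
          intro i j
          simp only [hA, Matrix.add_apply, Matrix.single_apply, iv_eq_iff, iv_iv]
          by_cases ha : p = i ∧ q = j
          · obtain ⟨rfl, rfl⟩ := ha
            by_cases hb : iv q = p
            · have hb' : iv p = q := by rw [← hb, iv_iv]
              simp only [hb, hb', and_self, if_true, cc]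
              have := ep_sq (e := e) p
              have := ep_sq (e := e) q
              sorry
            · sorry
          · sorry
        sorry
      sorry
  sorry

end

end Vale.Agent.P286.H44
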