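import Vale.Agent.P286.H341.LieSD

/-!
# The differential of the Koszul complex and the multiplication operators
-/

namespace Vale.Agent.P286.H44

open TensorProduct Vale.Agent.P286.H341 Vale.Agent.P286.H166

noncomputable section

set_option linter.unusedSectionVars false

section KDgen

variable {α : Type} [Fintype α] [DecidableEq α] {M : Type} [AddCommGroup M] [Module ℂ M]
  {c : α → α → α → ℂ} (K : KD c M)

/-- The quadratic part of the Chevalley–Eilenberg differential. -/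
def cq (c : α → α → α → ℂ) : Module.End ℂ (Ex α) :=
  (1 / 2 : ℂ) • ∑ a, ∑ b, ∑ k, c a b k • (Ex.th a * Ex.th b * Ex.io k)

theorem dce_eq' : K.dce = ∑ a, tm (Ex.th a) (K.rho a) - tm (cq c) 1 := K.dce_eq

theorem q_th (a b k l : α) : (Ex.th a * Ex.th b * Ex.io k) * Ex.th l +
    Ex.th l * (Ex.th a * Ex.th b * Ex.io k) =
      if k = l then (Ex.th a * Ex.th b : Module.End ℂ (Ex α)) else 0 := by
  have h1 := Ex.io_th k l
  have h2 : (Ex.th l * (Ex.th a * Ex.th b * Ex.io k) : Module.End ℂ (Ex α)) =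
      Ex.th a * Ex.th b * (Ex.th l * Ex.io k) := by
    have e : ∀ (i j : α) (x : Ex α), Ex.th i (Ex.th j x) = -(Ex.th j (Ex.th i x)) := fun i j x =>
      LinearMap.congr_fun (Ex.th_th i j) x
    refine LinearMap.ext fun x => ?_
    change Ex.th l (Ex.th a (Ex.th b (Ex.io k x))) = Ex.th a (Ex.th b (Ex.th l (Ex.io k x)))
    rw [e l a, e l b, map_neg, neg_neg]
  rw [h2, mul_assoc (Ex.th a * Ex.th b), ← mul_add, h1]
  split_ifs
  · rw [mul_one]
  · rw [mul_zero]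

theorem cq_th (l : α) : cq c * Ex.th l + Ex.th l * cq c =
    (1 / 2 : ℂ) • ∑ a, ∑ b, c a b l • (Ex.th a * Ex.th b : Module.End ℂ (Ex α)) := by
  rw [cq, smul_mul_assoc, mul_smul_comm, ← smul_add, Finset.sum_mul, Finset.mul_sum,
    ← Finset.sum_add_distrib]
  congr 1
  refine Finset.sum_congr rfl fun a _ => ?_
  rw [Finset.sum_mul, Finset.mul_sum, ← Finset.sum_add_distrib]
  refine Finset.sum_congr rfl fun b _ => ?_
  rw [Finset.sum_mul, Finset.mul_sum, ← Finset.sum_add_distrib]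
  have h : ∀ k, (c a b k • (Ex.th a * Ex.th b * Ex.io k)) * Ex.th l +
      Ex.th l * (c a b k • (Ex.th a * Ex.th b * Ex.io k)) =
      if k = l then c a b k • (Ex.th a * Ex.th b : Module.End ℂ (Ex α)) else 0 := by
    intro k
    rw [smul_mul_assoc, mul_smul_comm, ← smul_add, q_th]
    split_ifs
    · rfl
    · rw [smul_zero]
  simp only [h]
  rw [Finset.sum_ite_eq', if_pos (Finset.mem_univ l)]

theorem cq_ep : cq c * Ex.ep + Ex.ep * cq c = (0 : Module.End ℂ (Ex α)) := by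
  have h1 : ∀ a b k, Ex.ep * (Ex.th a * Ex.th b * Ex.io k) =
      -(Ex.th a * Ex.th b * Ex.io k * (Ex.ep : Module.End ℂ (Ex α))) := by
    intro a b k
    have e1 : ∀ (a : α) (x : Ex α), Ex.ep (Ex.th a x) = -(Ex.th a (Ex.ep x)) := fun a x =>
      LinearMap.congr_fun (Ex.ep_th a) x
    have e2 : ∀ (a : α) (x : Ex α), Ex.ep (Ex.io a x) = -(Ex.io a (Ex.ep x)) := fun a x =>
      LinearMap.congr_fun (Ex.ep_io a) x
    refine LinearMap.ext fun x => ?_
    change Ex.ep (Ex.th a (Ex.th b (Ex.io k x))) = -(Ex.th a (Ex.th b (Ex.io k (Ex.ep x))))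
    rw [e1, e1, e2, map_neg, map_neg, map_neg, neg_neg]
  rw [cq, smul_mul_assoc, mul_smul_comm, ← smul_add]
  simp only [Finset.sum_mul, Finset.mul_sum, smul_mul_assoc, mul_smul_comm, h1, smul_neg,
    Finset.sum_neg_distrib]
  rw [add_neg_cancel, smul_zero]

theorem cq_one : cq c (1 : Ex α) = 0 := by
  rw [cq, LinearMap.smul_apply, LinearMap.sum_apply, Finset.sum_eq_zero, smul_zero]
  intro a _
  rw [LinearMap.sum_apply]
  refine Finset.sum_eq_zero fun b _ => ?_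
  rw [LinearMap.sum_apply]
  refine Finset.sum_eq_zero fun k _ => ?_
  rw [LinearMap.smul_apply]
  change c a b k • Ex.th a (Ex.th b (Ex.io k 1)) = 0
  rw [Ex.io_one, map_zero, map_zero, smul_zero]

/-- The anticommutator of the differential and the multiplication by `θ`. -/
theorem D_th (l : α) : K.D * tm (Ex.th l) 1 + tm (Ex.th l) 1 * K.D =
    tm 1 (K.F l) - (1 / 2 : ℂ) • ∑ a, ∑ b, c a b l • (tm (Ex.th a) 1 * tm (Ex.th b) 1) := by
  have h1 : K.D * tm (Ex.th l) 1 + tm (Ex.th l) 1 * K.D =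
      ∑ a, (tm (Ex.th a) (K.rho a) * tm (Ex.th l) 1 + tm (Ex.th l) 1 * tm (Ex.th a) (K.rho a)) -
      (tm (cq c) 1 * tm (Ex.th l) 1 + tm (Ex.th l) 1 * tm (cq c) 1) +
      (K.ddl * tm (Ex.th l) 1 + tm (Ex.th l) 1 * K.ddl) +
      ∑ a, (tm (Ex.io a) (K.F a) * tm (Ex.th l) 1 + tm (Ex.th l) 1 * tm (Ex.io a) (K.F a)) := by
    rw [Finset.sum_add_distrib, Finset.sum_add_distrib, KD.D, dce_eq', KD.dF, add_mul, add_mul,
      sub_mul, mul_add, mul_add, mul_sub, Finset.sum_mul, Finset.mul_sum, Finset.sum_mul,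
      Finset.mul_sum]
    abel
  have h2 : ∀ a, tm (Ex.th a) (K.rho a) * tm (Ex.th l) 1 +
      tm (Ex.th l) 1 * tm (Ex.th a) (K.rho a) = 0 := by
    intro a
    rw [tm_mul, tm_mul, mul_one, one_mul, ← tm_add', Ex.th_th, neg_add_cancel, tm_zero']
  have h3 : K.ddl * tm (Ex.th l) 1 + tm (Ex.th l) 1 * K.ddl = 0 := by
    rw [KD.ddl, tm_mul, tm_mul, mul_one, one_mul, ← tm_add', Ex.ep_th, neg_add_cancel, tm_zero']
  have h4 : ∀ a, tm (Ex.io a) (K.F a) * tm (Ex.th l) 1 + tm (Ex.th l) 1 * tm (Ex.io a) (K.F a) =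
      if a = l then tm 1 (K.F a) else 0 := by
    intro a
    rw [tm_mul, tm_mul, mul_one, one_mul, ← tm_add', Ex.io_th]
    split_ifs
    · rfl
    · rw [tm_zero']
  have h5 : tm (cq c) (1 : Module.End ℂ M) * tm (Ex.th l) 1 + tm (Ex.th l) 1 * tm (cq c) 1 =
      (1 / 2 : ℂ) • ∑ a, ∑ b, c a b l • (tm (Ex.th a) 1 * tm (Ex.th b) 1) := by
    rw [tm_mul, tm_mul, mul_one, ← tm_add', cq_th]
    have e1 : ∀ (s : ℂ) (S : Module.End ℂ (Ex α)), tm (s • S) (1 : Module.End ℂ M) = s • tm S 1 :=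
      fun s S => TensorProduct.map_smul_left _ _ _
    rw [e1, tm_sum']
    congr 1
    refine Finset.sum_congr rfl fun a _ => ?_
    rw [tm_sum']
    refine Finset.sum_congr rfl fun b _ => ?_
    rw [e1, tm_mul, mul_one]
  rw [h1, h3, h5]
  simp only [h2, h4]
  rw [Finset.sum_const_zero, Finset.sum_ite_eq', if_pos (Finset.mem_univ l)]
  abel

/-- The commutator of the differential and an operator on the coefficients. -/
theorem D_one (f : Module.End ℂ M) (hdl : K.dl * f = f * K.dl) (hF : ∀ a, K.F a * f = f * K.F a) :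
    K.D * tm 1 f - tm 1 f * K.D = ∑ a, tm (Ex.th a) (K.rho a * f - f * K.rho a) := by
  have h1 : K.D * tm 1 f - tm 1 f * K.D =
      ∑ a, (tm (Ex.th a) (K.rho a) * tm 1 f - tm 1 f * tm (Ex.th a) (K.rho a)) -
      (tm (cq c) 1 * tm 1 f - tm 1 f * tm (cq c) 1) +
      (K.ddl * tm 1 f - tm 1 f * K.ddl) +
      ∑ a, (tm (Ex.io a) (K.F a) * tm 1 f - tm 1 f * tm (Ex.io a) (K.F a)) := by
    rw [Finset.sum_sub_distrib, Finset.sum_sub_distrib, KD.D, dce_eq', KD.dF, add_mul, add_mul,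
      sub_mul, mul_add, mul_add, mul_sub, Finset.sum_mul, Finset.mul_sum, Finset.sum_mul,
      Finset.mul_sum]
    abel
  have h2 : ∀ a, tm (Ex.th a) (K.rho a) * tm 1 f - tm 1 f * tm (Ex.th a) (K.rho a) =
      tm (Ex.th a) (K.rho a * f - f * K.rho a) := by
    intro a
    rw [tm_mul, tm_mul, mul_one, one_mul, tm_sub]
  have h3 : K.ddl * tm 1 f - tm 1 f * K.ddl = 0 := by
    rw [KD.ddl, tm_mul, tm_mul, mul_one, one_mul, hdl, sub_self]
  have h4 : ∀ a, tm (Ex.io a) (K.F a) * tm 1 f - tm 1 f * tm (Ex.io a) (K.F a) = 0 := by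
    intro a
    rw [tm_mul, tm_mul, mul_one, one_mul, hF, sub_self]
  have h5 : tm (cq c) 1 * tm 1 f - tm 1 f * tm (cq c) 1 = 0 := by
    rw [tm_mul, tm_mul, mul_one, one_mul, one_mul, mul_one, sub_self]
  rw [h1, h3, h5]
  simp only [h2, h4]
  rw [Finset.sum_const_zero, sub_zero, add_zero, add_zero]

/-- The anticommutator of the differential and an odd operator on the coefficients. -/
theorem D_ep (f : Module.End ℂ M) (hr : ∀ a, K.rho a * f = f * K.rho a)
    (hF : ∀ a, K.F a * f = f * K.F a) :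
    K.D * tm Ex.ep f + tm Ex.ep f * K.D = tm 1 (K.dl * f + f * K.dl) := by
  have h1 : K.D * tm Ex.ep f + tm Ex.ep f * K.D =
      ∑ a, (tm (Ex.th a) (K.rho a) * tm Ex.ep f + tm Ex.ep f * tm (Ex.th a) (K.rho a)) -
      (tm (cq c) 1 * tm Ex.ep f + tm Ex.ep f * tm (cq c) 1) +
      (K.ddl * tm Ex.ep f + tm Ex.ep f * K.ddl) +
      ∑ a, (tm (Ex.io a) (K.F a) * tm Ex.ep f + tm Ex.ep f * tm (Ex.io a) (K.F a)) := by
    rw [Finset.sum_add_distrib, Finset.sum_add_distrib, KD.D, dce_eq', KD.dF, add_mul, add_mul,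
      sub_mul, mul_add, mul_add, mul_sub, Finset.sum_mul, Finset.mul_sum, Finset.sum_mul,
      Finset.mul_sum]
    abel
  have h2 : ∀ a, tm (Ex.th a) (K.rho a) * tm Ex.ep f + tm Ex.ep f * tm (Ex.th a) (K.rho a) = 0 := by
    intro a
    rw [tm_mul, tm_mul, hr, ← tm_add', Ex.ep_th, add_neg_cancel, tm_zero']
  have h3 : K.ddl * tm Ex.ep f + tm Ex.ep f * K.ddl = tm 1 (K.dl * f + f * K.dl) := by
    rw [KD.ddl, tm_mul, tm_mul, Ex.ep_sq, ← tm_add]
  have h4 : ∀ a, tm (Ex.io a) (K.F a) * tm Ex.ep f + tm Ex.ep f * tm (Ex.io a) (K.F a) = 0 := by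
    intro a
    rw [tm_mul, tm_mul, hF, ← tm_add', Ex.ep_io, add_neg_cancel, tm_zero']
  have h5 : tm (cq c) 1 * tm Ex.ep f + tm Ex.ep f * tm (cq c) 1 = 0 := by
    rw [tm_mul, tm_mul, mul_one, one_mul, ← tm_add', cq_ep, tm_zero']
  rw [h1, h3, h5]
  simp only [h2, h4]
  rw [Finset.sum_const_zero, sub_zero, add_zero, zero_add]

theorem D_tt_one (m : M) (hr : ∀ a, K.rho a m = 0) (hd : K.dl m = 0) : K.D (tt 1 m) = 0 := by
  rw [KD.D, LinearMap.add_apply, LinearMap.add_apply, dce_eq', LinearMap.sub_apply,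
    LinearMap.sum_apply, KD.ddl, KD.dF, LinearMap.sum_apply, tm_tt, tm_tt, cq_one, hd,
    KV.tt_zero, KV.tt_zero', sub_zero, add_zero]
  rw [Finset.sum_eq_zero, Finset.sum_eq_zero, add_zero]
  · intro a _
    rw [tm_tt, Ex.io_one, KV.tt_zero]
  · intro a _
    rw [tm_tt, hr, KV.tt_zero']

end KDgen

end

end Vale.Agent.P286.H44
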