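import Vale.Agent.P286.H44.Rst2
import Vale.Agent.P286.H44.WkKoz
import Vale.Agent.P286.H341.Lam

/-!
# The restriction to the Koszul complex is a quasi-isomorphism
-/

namespace Vale.Agent.P286.H44

open TensorProduct Matrix Vale.Agent.P286.H341 Vale.Agent.P286.H166 Vale.Agent.P286.H847

noncomputable section

set_option linter.unusedSectionVars false

section Ops

variable {n k : ℕ}

/-- The leading part of the differential. -/
def kd0 (n k : ℕ) : Module.End ℂ (KK n k) :=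
  ∑ a : Fin k, tm (Ex.io a) (tm 1 (mop (MvPolynomial.X a)))

/-- The partial derivative. -/
def kpd (a : Fin k) : Module.End ℂ (MvPolynomial (Fin k) ℂ) :=
  (MvPolynomial.pderiv a : Derivation ℂ (MvPolynomial (Fin k) ℂ) (MvPolynomial (Fin k) ℂ)).toLinearMap

/-- The homotopy. -/
def kh0 (n k : ℕ) : Module.End ℂ (KK n k) := ∑ a : Fin k, tm (Ex.th a) (tm 1 (kpd a))

theorem kd0_Tk (l : Fin k) : kd0 n k * Tk n l + Tk n l * kd0 n k = Fk n k (MvPolynomial.X l) := by
  rw [kd0, Finset.sum_mul, Finset.mul_sum, ← Finset.sum_add_distrib, Finset.sum_eq_single l]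
  · rw [Tk, tm_mul, tm_mul, one_mul, mul_one, ← tm_add', Ex.io_th, if_pos rfl]
    rfl
  · intro a _ ha
    rw [Tk, tm_mul, tm_mul, one_mul, mul_one, ← tm_add', Ex.io_th, if_neg ha, tm_zero']
  · intro h; exact absurd (Finset.mem_univ l) h

theorem kd0_Fk (s : MvPolynomial (Fin k) ℂ) : kd0 n k * Fk n k s = Fk n k s * kd0 n k := by
  rw [kd0, Finset.sum_mul, Finset.mul_sum]
  refine Finset.sum_congr rfl fun a _ => ?_
  rw [Fk_apply, tm_mul, tm_mul, tm_mul, tm_mul, mop_comm, mul_one, one_mul, one_mul]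

theorem kd0_Xk (t : Fin n) : kd0 n k * Xk k t = -(Xk k t * kd0 n k) := by
  rw [kd0, Finset.sum_mul, Finset.mul_sum, ← Finset.sum_neg_distrib]
  refine Finset.sum_congr rfl fun a _ => ?_
  rw [Xk, tm_mul, tm_mul, tm_mul, tm_mul, one_mul, mul_one, one_mul, mul_one, Ex.ep_io, tm_neg',
    neg_neg]

theorem kh0_Tk (l : Fin k) : kh0 n k * Tk n l = -(Tk n l * kh0 n k) := by
  rw [kh0, Finset.sum_mul, Finset.mul_sum, ← Finset.sum_neg_distrib]
  refine Finset.sum_congr rfl fun a _ => ?_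
  rw [Tk, tm_mul, tm_mul, one_mul, mul_one, Ex.th_th, tm_neg']

theorem kpd_mop (a b : Fin k) : kpd a * mop (MvPolynomial.X b) =
    mop (MvPolynomial.X b) * kpd a + if a = b then 1 else 0 := by
  refine LinearMap.ext fun x => ?_
  rw [LinearMap.add_apply, Module.End.mul_apply, Module.End.mul_apply]
  have h1 : kpd a (mop (MvPolynomial.X b) x) = MvPolynomial.X b * MvPolynomial.pderiv a x +
      x * MvPolynomial.pderiv a (MvPolynomial.X b) :=
    (MvPolynomial.pderiv a).leibniz (MvPolynomial.X b) x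
  have h2 : mop (MvPolynomial.X b) (kpd a x) = MvPolynomial.X b * MvPolynomial.pderiv a x := rfl
  rw [h1, h2, MvPolynomial.pderiv_X]
  congr 1
  by_cases h : a = b
  · subst h
    rw [Pi.single_eq_same, mul_one, if_pos rfl, Module.End.one_apply]
  · rw [Pi.single_eq_of_ne (Ne.symm h), mul_zero, if_neg h, LinearMap.zero_apply]

theorem kh0_Fk (b : Fin k) : kh0 n k * Fk n k (MvPolynomial.X b) =
    Fk n k (MvPolynomial.X b) * kh0 n k + Tk n b := by
  have h1 : ∀ a, tm (Ex.th a) (tm 1 (kpd a)) * Fk n k (MvPolynomial.X b) =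
      Fk n k (MvPolynomial.X b) * tm (Ex.th a) (tm 1 (kpd a)) + if a = b then Tk n a else 0 := by
    intro a
    rw [Fk_apply, tm_mul, tm_mul, tm_mul, tm_mul, one_mul, mul_one, one_mul, kpd_mop, tm_add, tm_add]
    congr 1
    split_ifs with h
    · rw [tm_one_one, Tk]
    · rw [tm_zero, tm_zero]
  rw [kh0, Finset.sum_mul, Finset.mul_sum, Finset.sum_congr rfl fun a _ => h1 a,
    Finset.sum_add_distrib, Finset.sum_ite_eq', if_pos (Finset.mem_univ b)]

theorem kh0_Xk (t : Fin n) : kh0 n k * Xk k t = -(Xk k t * kh0 n k) := by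
  rw [kh0, Finset.sum_mul, Finset.mul_sum, ← Finset.sum_neg_distrib]
  refine Finset.sum_congr rfl fun a _ => ?_
  rw [Xk, tm_mul, tm_mul, tm_mul, tm_mul, one_mul, mul_one, one_mul, mul_one, Ex.ep_th, tm_neg',
    neg_neg]

theorem kd0_ok : kd0 n k (ok n k) = 0 := by
  rw [kd0, LinearMap.sum_apply]
  refine Finset.sum_eq_zero fun a _ => ?_
  rw [ok, tm_tt, Ex.io_one, KV.tt_zero]

theorem kh0_ok : kh0 n k (ok n k) = 0 := by
  rw [kh0, LinearMap.sum_apply]
  refine Finset.sum_eq_zero fun a _ => ?_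
  have h : kpd a 1 = 0 := (MvPolynomial.pderiv a : Derivation ℂ (MvPolynomial (Fin k) ℂ)
    (MvPolynomial (Fin k) ℂ)).map_one_eq_zero
  rw [ok, tm_tt, tm_tt, h, KV.tt_zero', KV.tt_zero']

/-- The augmentation of the polynomials. -/
def ag0 (k : ℕ) : MvPolynomial (Fin k) ℂ →ₗ[ℂ] ℂ :=
  (MvPolynomial.aeval (fun _ => (0 : ℂ)) : MvPolynomial (Fin k) ℂ →ₐ[ℂ] ℂ).toLinearMap

/-- The projection to the exterior algebra on the `ξ`. -/
def kpr (n k : ℕ) : KK n k →ₗ[ℂ] Ex (Fin n) :=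
  (TensorProduct.lid ℂ (Ex (Fin n))).toLinearMap ∘ₗ
    TensorProduct.map Ex.aug.toLinearMap (KV.pr (ag0 k))

theorem kpr_tt (x : Ex (Fin k)) (z : Ex (Fin n)) (s : MvPolynomial (Fin k) ℂ) :
    kpr n k (tt x (tt z s)) = Ex.aug x • ag0 k s • z := rfl

/-- The section. -/
def ksec (n k : ℕ) : Ex (Fin n) →ₗ[ℂ] KK n k where
  toFun z := tt 1 (tt z 1)
  map_add' x y := by rw [KV.tt_add, KV.tt_add']
  map_smul' c x := by rw [KV.tt_smul, KV.tt_smul']; rfl

theorem KK_hom_ext {W : Type} [AddCommGroup W] [Module ℂ W] {f g : KK n k →ₗ[ℂ] W}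
    (h : ∀ x z s, f (tt x (tt z s)) = g (tt x (tt z s))) (v : KK n k) : f v = g v := by
  refine KV.hom_ext (f := f) (g := g) (fun x m => ?_) v
  induction m using KV.ind with
  | h0 => rw [KV.tt_zero', map_zero, map_zero]
  | h z s => exact h x z s
  | ha v w hv hw => rw [KV.tt_add', map_add, map_add, hv, hw]

theorem aug_ep (x : Ex (Fin k)) : Ex.aug (Ex.ep x) = Ex.aug x := by
  induction x using Ex.ind with
  | h1 => rw [Ex.ep_one]
  | hs c x hx => rw [map_smul, map_smul, map_smul, hx]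
  | ha x y hx hy => rw [map_add, map_add, map_add, hx, hy]
  | hm v x hx => rw [Ex.ep_ι_mul, map_neg, Ex.aug_ι_mul, Ex.aug_ι_mul, neg_zero]

theorem kpr_Tk (a : Fin k) (v : KK n k) : kpr n k (Tk n a v) = 0 := by
  refine KK_hom_ext (f := kpr n k ∘ₗ Tk n a) (g := 0) (fun x z s => ?_) v
  rw [LinearMap.comp_apply, Tk_tt, kpr_tt, Ex.th_apply, Ex.gn, Ex.aug_ι_mul, zero_smul]
  rfl

theorem kpr_Fk (a : Fin k) (v : KK n k) : kpr n k (Fk n k (MvPolynomial.X a) v) = 0 := by
  refine KK_hom_ext (f := kpr n k ∘ₗ Fk n k (MvPolynomial.X a)) (g := 0) (fun x z s => ?_) v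
  have h : ag0 k (MvPolynomial.X a * s) = 0 := by
    change MvPolynomial.aeval (fun _ => (0 : ℂ)) (MvPolynomial.X a * s) = 0
    rw [map_mul, MvPolynomial.aeval_X, zero_mul]
  rw [LinearMap.comp_apply, Fk_tt, kpr_tt, h, zero_smul, smul_zero]
  rfl

theorem kpr_Xk (t : Fin n) (v : KK n k) : kpr n k (Xk k t v) = Ex.th t (kpr n k v) := by
  refine KK_hom_ext (f := kpr n k ∘ₗ Xk k t) (g := Ex.th t ∘ₗ kpr n k) (fun x z s => ?_) v
  rw [LinearMap.comp_apply, LinearMap.comp_apply, Xk, tm_tt, tm_tt, kpr_tt, kpr_tt, aug_ep,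
    map_smul, map_smul]
  rfl

theorem kpr_ksec (z : Ex (Fin n)) : kpr n k (ksec n k z) = z := by
  have h : ag0 k 1 = 1 := map_one (MvPolynomial.aeval (fun _ => (0 : ℂ)))
  change kpr n k (tt 1 (tt z 1)) = z
  rw [kpr_tt, h, map_one, one_smul, one_smul]

end Ops

variable {I : Type} [Fintype I] [DecidableEq I] {n k : ℕ} {e : Fin k → Matrix I I ℂ}
  {g : Submodule ℂ (Matrix I I ℂ)} {d : SD (stc e) n (MvPolynomial (Fin k) ℂ)}

section Deg

variable (G : SG d)

theorem gK_ok : G.kg.gK (ok n k) = 0 := by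
  have h := G.tt_gr (x := (1 : Ex (Fin k))) (m := 0) (by
    rw [Ex.mem_gr, Ex.wt_one, Int.cast_zero, zero_smul])
  rw [KG.mem_gr, Int.cast_zero, zero_smul] at h
  exact h

theorem gK_Tk (a : Fin k) (v : KK n k) : G.kg.gK (Tk n a v) = Tk n a (G.kg.gK v) + (1 : ℂ) • Tk n a v :=
  ((Deg.tm (deg_th (fun _ => (1 : ℂ)) a) (Deg.one (g := G.kg.g))).congr (add_zero 1)) v

theorem gK_Xk (t : Fin n) (v : KK n k) :
    G.kg.gK (Xk k t v) = Xk k t (G.kg.gK v) + wx n t • Xk k t v :=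
  ((Deg.tm (deg_ep (fun _ => (1 : ℂ))) (Deg.tm (deg_th (wx n) t) (Deg.one (g := dop G.dS)))).congr
    (by ring)) v

variable (h : LD e g d)

include h

theorem gK_Fk (a : Fin k) (v : KK n k) : G.kg.gK (Fk n k (MvPolynomial.X a) v) =
    Fk n k (MvPolynomial.X a) (G.kg.gK v) + (2 : ℂ) • Fk n k (MvPolynomial.X a) v := by
  have h1 := ((Deg.tm (Deg.one (g := Ex.wt (fun _ => (1 : ℂ)))) (G.kg.F a)).congr (zero_add 2)) v
  have h2 : d.kd'.F a = tm 1 (mop (MvPolynomial.X a)) := by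
    change tm 1 (mop (d.F a)) = _
    rw [h.F]
  rw [h2] at h1
  exact h1

omit h in
/-- The span of the monomials. -/
abbrev SK (n k : ℕ) (m : ℤ) (j : ℕ) : Submodule ℂ (KK n k) :=
  ms (WkM.w n) (ok n k) (Tk n) (fun a => Fk n k (MvPolynomial.X a)) (Xk k) m j

theorem gK_mon {m : ℤ} {j : ℕ} {v : KK n k}
    (hv : Mon (WkM.w n) (ok n k) (Tk n) (fun a => Fk n k (MvPolynomial.X a)) (Xk k) m j v) :
    G.kg.gK v = (m : ℂ) • v := by
  induction hv with
  | one => rw [gK_ok, Int.cast_zero, zero_smul]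
  | th a m j v _ ih =>
    rw [gK_Tk, ih, map_smul, ← add_smul]
    push_cast
    rfl
  | cu a m j v _ ih =>
    rw [gK_Fk G h, ih, map_smul, ← add_smul]
    push_cast
    rfl
  | xi t m j v _ ih =>
    rw [gK_Xk, ih, map_smul, ← add_smul]
    congr 1
    rw [wx, WkM.w]
    push_cast
    ring

theorem gK_S {m : ℤ} {v : KK n k} (hv : v ∈ SK n k m 0) : G.kg.gK v = (m : ℂ) • v := by
  have : G.kg.gK v - (m : ℂ) • v ∈ (⊥ : Submodule ℂ (KK n k)) :=
    map_ms (S := G.kg.gK - (m : ℂ) • LinearMap.id) (fun j _ v hv => by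
      rw [Submodule.mem_bot, LinearMap.sub_apply, gK_mon G h hv]
      exact sub_self _) hv
  exact sub_eq_zero.1 ((Submodule.mem_bot ℂ).1 this)

omit h in
theorem KK_gen (v : KK n k) : v ∈ ⨆ m, SK n k m 0 := by
  have key : ∀ (f : Module.End ℂ (KK n k)) (j : ℤ),
      (∀ m, ∀ v ∈ SK n k m 0, f v ∈ SK n k (m + j) 0) →
      ∀ v ∈ ⨆ m, SK n k m 0, f v ∈ ⨆ m, SK n k m 0 := by
    intro f j hf v hv
    have : ⨆ m, SK n k m 0 ≤ (⨆ m, SK n k m 0).comap f :=
      iSup_le fun m v hv => Submodule.mem_iSup_of_mem (m + j) (hf m v hv)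
    exact this hv
  refine KK_top (⨆ m, SK n k m 0) (Submodule.mem_iSup_of_mem 0 Mon.one.mem) (fun a => ?_)
    (fun t => ?_) (fun a => ?_) v
  · exact key _ 1 fun m v hv => ms_le (Nat.zero_le _) (T_ms a hv)
  · exact key _ (WkM.w n t : ℕ) fun m v hv => X_ms t hv
  · exact key _ 2 fun m v hv => ms_le (Nat.zero_le _)
      (Φ_ms (Φ := fun a => Fk n k (MvPolynomial.X a)) a hv)

theorem KK_gr_eq (m : ℤ) : G.kg.gr m = SK n k m 0 :=
  (internal_of_span G.kg.gK (fun m => SK n k m 0) (fun _ _ hv => gK_S G h hv) KK_gen).2 m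

/-- The Koszul complex. -/
abbrev KGD : GD where
  V := KK n k
  d := d.kd'.D
  dd := h.DD
  gr := G.kg.gr
  dgr := G.kg.D_gr

theorem y_hom (t : Fin n) : (d.y (MvPolynomial.X t)).IsHomogeneous (2 * ((t : ℕ) + 1)) := by
  rw [h.y]
  have h2 := (Wk.ep_hom (I := I) (2 * ((t : ℕ) + 1))).aeval
    (fun p => ∑ a, MvPolynomial.C (e a p.1 p.2) * MvPolynomial.X a :
      I × I → MvPolynomial (Fin k) ℂ)
    (n := 1) (fun p => MvPolynomial.IsHomogeneous.sum _ _ _ fun a _ => by
      have := (MvPolynomial.isHomogeneous_C (Fin k) (e a p.1 p.2)).mul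
        (MvPolynomial.isHomogeneous_X ℂ a)
      rwa [zero_add] at this)
  rw [one_mul] at h2
  exact h2

/-- The generators of the Koszul complex. -/
def kozK : Koz (Fin k) (WkM.w n) (fun t : Fin n => (Ex.th t : Module.End ℂ (Ex (Fin n)))) 1
    (KGD G h) where
  o := ok n k
  T := Tk n
  Φ a := Fk n k (MvPolynomial.X a)
  X := Xk k
  d0 := kd0 n k
  h := kh0 n k
  pr := kpr n k
  sec := ksec n k
  o_gr := by
    change ok n k ∈ G.kg.gr 0
    rw [KG.mem_gr, gK_ok, Int.cast_zero, zero_smul]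
  T_gr a m v hv := by
    have hv' : G.kg.gK v = (m : ℂ) • v := (KG.mem_gr _).1 hv
    change Tk n a v ∈ G.kg.gr (m + 1)
    rw [KG.mem_gr, gK_Tk, hv', map_smul, ← add_smul]
    push_cast
    rfl
  Φ_gr a m v hv := by
    have hv' : G.kg.gK v = (m : ℂ) • v := (KG.mem_gr _).1 hv
    change Fk n k (MvPolynomial.X a) v ∈ G.kg.gr (m + 2)
    rw [KG.mem_gr, gK_Fk G h, hv', map_smul, ← add_smul]
    push_cast
    rfl
  X_gr t m v hv := by
    have hv' : G.kg.gK v = (m : ℂ) • v := (KG.mem_gr _).1 hv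
    change Xk k t v ∈ G.kg.gr (m + (WkM.w n t : ℕ))
    rw [KG.mem_gr, gK_Xk, hv', map_smul, ← add_smul]
    congr 1
    rw [wx, WkM.w]
    push_cast
    ring
  gr_le m := (KK_gr_eq G h m).le
  gen := KK_gen
  d_o := D_ok
  d_T l m j v hv := by
    have h1 := LinearMap.congr_fun (D_Tk (d := d) l) v
    rw [LinearMap.add_apply, Module.End.mul_apply, Module.End.mul_apply, LinearMap.sub_apply,
      h.F] at h1
    have h2 : d.kd'.D (Tk n l v) + Tk n l (d.kd'.D v) - Fk n k (MvPolynomial.X l) v =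
        -(((1 / 2 : ℂ) • ∑ a, ∑ b, stc e a b l • (Tk n a * Tk n b)) v) := by
      rw [h1]; abel
    change d.kd'.D (Tk n l v) + Tk n l (d.kd'.D v) - Fk n k (MvPolynomial.X l) v ∈
      SK n k (m + 2) (j + 2)
    rw [h2, LinearMap.smul_apply, LinearMap.sum_apply]
    refine neg_mem (Submodule.smul_mem _ _ (Submodule.sum_mem _ fun a _ => ?_))
    rw [LinearMap.sum_apply]
    refine Submodule.sum_mem _ fun b _ => ?_
    rw [LinearMap.smul_apply, Module.End.mul_apply]
    refine Submodule.smul_mem _ _ ?_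
    have := T_ms (w := WkM.w n) (o := ok n k) (T := Tk n)
      (Φ := fun a => Fk n k (MvPolynomial.X a)) (X := Xk k) a (hv.th b _ _ _).mem
    rwa [show m + 1 + 1 = m + 2 by ring] at this
  d_Φ l m j v hv := by
    have h1 := LinearMap.congr_fun (D_Fk (d := d) (MvPolynomial.X l)) v
    rw [LinearMap.sub_apply, Module.End.mul_apply, Module.End.mul_apply,
      LinearMap.sum_apply] at h1
    change d.kd'.D (Fk n k (MvPolynomial.X l) v) - Fk n k (MvPolynomial.X l) (d.kd'.D v) ∈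
      SK n k (m + 3) (j + 2)
    rw [h1]
    refine Submodule.sum_mem _ fun a _ => ?_
    rw [h.r, rpd, lvf_X, map_sum, Finset.mul_sum, LinearMap.sum_apply]
    refine Submodule.sum_mem _ fun b _ => ?_
    rw [map_smul, mul_smul_comm, LinearMap.smul_apply, Module.End.mul_apply]
    refine Submodule.smul_mem _ _ ?_
    have := T_ms (w := WkM.w n) (o := ok n k) (T := Tk n)
      (Φ := fun a => Fk n k (MvPolynomial.X a)) (X := Xk k) a (hv.cu b _ _ _).mem
    rwa [show m + 2 + 1 = m + 3 by ring] at this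
  d_X t m j v hv := by
    have h1 := LinearMap.congr_fun (D_Xk (d := d) t) v
    rw [LinearMap.add_apply, Module.End.mul_apply, Module.End.mul_apply] at h1
    change d.kd'.D (Xk k t v) + Xk k t (d.kd'.D v) ∈ SK n k (m + (WkM.w n t : ℕ) + 1) (j + 1)
    rw [h1]
    have h2 := hom_ms (w := WkM.w n) (o := ok n k) (T := Tk n)
      (Φ := fun a => Fk n k (MvPolynomial.X a)) (X := Xk k) (Fk n k) (fun a => rfl)
      (y_hom h t) hv.mem
    have h3 : m + 2 * ((2 * ((t : ℕ) + 1) : ℕ) : ℤ) = m + (WkM.w n t : ℕ) + 1 := by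
      rw [WkM.w]; push_cast; ring
    rw [h3] at h2
    exact ms_le (by omega) h2
  d0_o := kd0_ok
  d0_T a v := by
    have h1 := LinearMap.congr_fun (kd0_Tk (n := n) a) v
    rw [LinearMap.add_apply, Module.End.mul_apply, Module.End.mul_apply] at h1
    exact eq_sub_of_add_eq h1
  d0_Φ a v := LinearMap.congr_fun (kd0_Fk (n := n) (MvPolynomial.X a)) v
  d0_X t v := LinearMap.congr_fun (kd0_Xk (k := k) t) v
  h_o := kh0_ok
  h_T a v := LinearMap.congr_fun (kh0_Tk (n := n) a) v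
  h_Φ a v := LinearMap.congr_fun (kh0_Fk (n := n) a) v
  h_X t v := LinearMap.congr_fun (kh0_Xk (k := k) t) v
  pr_o := kpr_ksec 1
  pr_T := kpr_Tk
  pr_Φ := kpr_Fk
  pr_X := kpr_Xk
  sec_o := rfl
  sec_X t x := by
    change tt 1 (tt (Ex.th t x) 1) = Xk k t (tt 1 (tt x 1))
    rw [Xk_tt_one, tm_tt]
    rfl
  pr_sec := kpr_ksec

/-- The degrees. -/
theorem gK_rs (x : Wk I n) : G.kg.gK (rs e n x) = rs e n (Wk.Nm I n x) := by
  induction x using H273.wk_ind with
  | h1 => rw [rs_one, gK_ok, WkM.Nm_one, map_zero]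
  | ha x y hx hy => rw [map_add, map_add, hx, hy, map_add, map_add]
  | hs c x hx => rw [map_smul, map_smul, hx, map_smul, map_smul]
  | hg a x hx =>
    rw [WkM.Nm_gn_mul, map_add, map_smul, rs_gn, rs_gn, ← hx]
    rcases a with p | t
    · rw [gl_inl, LinearMap.sum_apply, map_sum, LinearMap.sum_apply, Finset.smul_sum,
        ← Finset.sum_add_distrib]
      refine Finset.sum_congr rfl fun a _ => ?_
      rw [LinearMap.smul_apply, map_smul, gK_Tk, LinearMap.smul_apply, smul_add, add_comm]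
      congr 1
      change _ = ((1 : ℤ) : ℂ) • _
      rw [one_smul, Int.cast_one, one_smul]
    · rw [gl_inr, gK_Xk, add_comm]
      congr 2
      change wx n t = ((4 * ((t : ℕ) : ℤ) + 3 : ℤ) : ℂ)
      rw [wx]
      push_cast
      ring
  | hp s x hx =>
    rw [WkM.Nm_X_mul, map_add, map_smul, rs_inP, rs_inP, ← hx, res_X_eq, map_sum,
      LinearMap.sum_apply, map_sum, LinearMap.sum_apply, Finset.smul_sum,
      ← Finset.sum_add_distrib]
    refine Finset.sum_congr rfl fun a _ => ?_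
    rw [map_smul, LinearMap.smul_apply, map_smul, gK_Fk G h, LinearMap.smul_apply, smul_add,
      add_comm, smul_comm]

theorem kpr_rs (x : Wk I n) : kpr n k (rs e n x) = WkM.prA I n x := by
  induction x using H273.wk_ind with
  | h1 => rw [rs_one, map_one]; exact kpr_ksec 1
  | ha x y hx hy => rw [map_add, map_add, hx, hy, map_add]
  | hs c x hx => rw [map_smul, map_smul, hx, map_smul]
  | hg a x hx =>
    rw [rs_gn, map_mul, WkM.prA_gn]
    rcases a with p | t
    · rw [gl_inl, LinearMap.sum_apply, map_sum, Finset.sum_eq_zero]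
      · exact (zero_mul _).symm
      · intro a _
        rw [LinearMap.smul_apply, map_smul, kpr_Tk, smul_zero]
    · rw [gl_inr, kpr_Xk, hx]
      rfl
  | hp s x hx =>
    rw [rs_inP, map_mul, WkM.prA_X, zero_mul, res_X_eq, map_sum, LinearMap.sum_apply, map_sum]
    refine Finset.sum_eq_zero fun a _ => ?_
    rw [map_smul, LinearMap.smul_apply, map_smul, kpr_Fk, smul_zero]

/-- **The restriction, as a morphism.** -/
def rsHom : GD.Hom (WK I n).toGD (G.kg.gd h.DD) where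
  f := rs e n
  comm := h.rs_d
  deg m x hx := by
    change rs e n x ∈ G.kg.gr m
    rw [KG.mem_gr, gK_rs G h, Wk.mem_gr.1 hx, map_smul]

theorem rsHom_f (x : Wk I n) : (rsHom G h).f x = rs e n x := rfl

/-- **The restriction is a quasi-isomorphism.** -/
theorem qis_rs : GD.Qis (rsHom G h) :=
  (WkM.koz I n).qis (kozK G h) (rsHom G h) (kpr_rs h)

end Deg

end

end Vale.Agent.P286.H44
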