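import Vale.Agent.P286.H341.Green
import Vale.Agent.P286.H847.GD2

/-!
# Contraction of an algebra of Weil type

Operators `T a` (left multiplication by `θ^a`), `Φ a` (by `F^a`), `X i` (by `ξ_i`) on a graded
differential space `M`, generated from a vector `o`; the differential is `θ^a ↦ F^a` up to terms
raising the degree in `(θ, F)`.  Then `M → M / (θ, F)` is a quasi-isomorphism.
-/

namespace Vale.Agent.P286.H44

open Vale.Agent.P286.H847 Vale.Agent.P286.H341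

noncomputable section

variable {α β V L : Type} [AddCommGroup V] [Module ℂ V] [AddCommGroup L] [Module ℂ L]

/-- The monomials of degree `m`, of degree `k` in `(θ, F)`. -/
inductive Mon (w : β → ℕ) (o : V) (T Φ : α → Module.End ℂ V) (X : β → Module.End ℂ V) :
    ℤ → ℕ → V → Prop
  | one : Mon w o T Φ X 0 0 o
  | th (a : α) (m : ℤ) (k : ℕ) (v : V) : Mon w o T Φ X m k v → Mon w o T Φ X (m + 1) (k + 1) (T a v)
  | cu (a : α) (m : ℤ) (k : ℕ) (v : V) : Mon w o T Φ X m k v → Mon w o T Φ X (m + 2) (k + 1) (Φ a v)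
  | xi (i : β) (m : ℤ) (k : ℕ) (v : V) : Mon w o T Φ X m k v → Mon w o T Φ X (m + w i) k (X i v)

/-- The span of the monomials of degree `m`, of degree at least `k` in `(θ, F)`. -/
def ms (w : β → ℕ) (o : V) (T Φ : α → Module.End ℂ V) (X : β → Module.End ℂ V) (m : ℤ) (k : ℕ) :
    Submodule ℂ V :=
  Submodule.span ℂ {v | ∃ j, k ≤ j ∧ Mon w o T Φ X m j v}

section

variable {w : β → ℕ} {o : V} {T Φ : α → Module.End ℂ V} {X : β → Module.End ℂ V}

theorem Mon.le {m : ℤ} {k : ℕ} {v : V} (h : Mon w o T Φ X m k v) : (k : ℤ) ≤ m := by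
  induction h with
  | one => simp
  | th a m k v _ ih => push_cast; omega
  | cu a m k v _ ih => push_cast; omega
  | xi i m k v _ ih => omega

theorem Mon.mem {m : ℤ} {k : ℕ} {v : V} (h : Mon w o T Φ X m k v) :
    v ∈ ms w o T Φ X m k := Submodule.subset_span ⟨k, le_rfl, h⟩

theorem ms_le {m : ℤ} {j k : ℕ} (h : j ≤ k) : ms w o T Φ X m k ≤ ms w o T Φ X m j := by
  refine Submodule.span_mono ?_
  rintro v ⟨i, hi, hv⟩
  exact ⟨i, h.trans hi, hv⟩

theorem ms_eq_bot {m : ℤ} {k : ℕ} (h : m < k) : ms w o T Φ X m k = ⊥ := by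
  rw [ms, Submodule.span_eq_bot]
  rintro v ⟨j, hj, hv⟩
  exact absurd hv.le (by omega)

theorem map_ms {W : Type} [AddCommGroup W] [Module ℂ W] {m : ℤ} {k : ℕ} {S : V →ₗ[ℂ] W}
    {Q : Submodule ℂ W} (h : ∀ j, k ≤ j → ∀ v, Mon w o T Φ X m j v → S v ∈ Q) {v : V}
    (hv : v ∈ ms w o T Φ X m k) : S v ∈ Q := by
  have : ms w o T Φ X m k ≤ Q.comap S := by
    refine Submodule.span_le.2 ?_
    rintro v ⟨j, hj, hv⟩
    exact h j hj v hv
  exact this hv

theorem T_ms (a : α) {m : ℤ} {k : ℕ} {v : V} (hv : v ∈ ms w o T Φ X m k) :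
    T a v ∈ ms w o T Φ X (m + 1) (k + 1) :=
  map_ms (fun _ hj _ hv => ms_le (Nat.succ_le_succ hj) (hv.th a _ _ _).mem) hv

theorem Φ_ms (a : α) {m : ℤ} {k : ℕ} {v : V} (hv : v ∈ ms w o T Φ X m k) :
    Φ a v ∈ ms w o T Φ X (m + 2) (k + 1) :=
  map_ms (fun _ hj _ hv => ms_le (Nat.succ_le_succ hj) (hv.cu a _ _ _).mem) hv

theorem X_ms (i : β) {m : ℤ} {k : ℕ} {v : V} (hv : v ∈ ms w o T Φ X m k) :
    X i v ∈ ms w o T Φ X (m + w i) k :=
  map_ms (fun _ hj _ hv => ms_le hj (hv.xi i _ _ _).mem) hv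

end

/-- Generators of Weil type on a graded differential space. -/
structure Koz (α : Type) {β : Type} (w : β → ℕ) (xi : β → Module.End ℂ L) (oL : L) (M : GD) where
  /-- the unit -/
  o : M.V
  /-- multiplication by the generators of degree one -/
  T : α → Module.End ℂ M.V
  /-- multiplication by the generators of degree two -/
  Φ : α → Module.End ℂ M.V
  /-- multiplication by the remaining generators -/
  X : β → Module.End ℂ M.V
  /-- the leading part of the differential -/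
  d0 : Module.End ℂ M.V
  /-- its homotopy -/
  h : Module.End ℂ M.V
  /-- the projection -/
  pr : M.V →ₗ[ℂ] L
  /-- the section -/
  sec : L →ₗ[ℂ] M.V
  o_gr : o ∈ M.gr 0
  T_gr : ∀ a m v, v ∈ M.gr m → T a v ∈ M.gr (m + 1)
  Φ_gr : ∀ a m v, v ∈ M.gr m → Φ a v ∈ M.gr (m + 2)
  X_gr : ∀ i m v, v ∈ M.gr m → X i v ∈ M.gr (m + w i)
  gr_le : ∀ m, M.gr m ≤ ms w o T Φ X m 0
  gen : ∀ v, v ∈ ⨆ m, ms w o T Φ X m 0
  d_o : M.d o = 0
  d_T : ∀ a m k v, Mon w o T Φ X m k v →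
    M.d (T a v) + T a (M.d v) - Φ a v ∈ ms w o T Φ X (m + 2) (k + 2)
  d_Φ : ∀ a m k v, Mon w o T Φ X m k v →
    M.d (Φ a v) - Φ a (M.d v) ∈ ms w o T Φ X (m + 3) (k + 2)
  d_X : ∀ i m k v, Mon w o T Φ X m k v →
    M.d (X i v) + X i (M.d v) ∈ ms w o T Φ X (m + w i + 1) (k + 1)
  d0_o : d0 o = 0
  d0_T : ∀ a v, d0 (T a v) = Φ a v - T a (d0 v)
  d0_Φ : ∀ a v, d0 (Φ a v) = Φ a (d0 v)
  d0_X : ∀ i v, d0 (X i v) = -(X i (d0 v))
  h_o : h o = 0
  h_T : ∀ a v, h (T a v) = -(T a (h v))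
  h_Φ : ∀ a v, h (Φ a v) = Φ a (h v) + T a v
  h_X : ∀ i v, h (X i v) = -(X i (h v))
  pr_o : pr o = oL
  pr_T : ∀ a v, pr (T a v) = 0
  pr_Φ : ∀ a v, pr (Φ a v) = 0
  pr_X : ∀ i v, pr (X i v) = xi i (pr v)
  sec_o : sec oL = o
  sec_X : ∀ i x, sec (xi i x) = X i (sec x)
  pr_sec : ∀ x, pr (sec x) = x

namespace Koz

variable {w : β → ℕ} {xi : β → Module.End ℂ L} {oL : L} {M : GD} (K : Koz α w xi oL M)

/-- The monomials. -/
abbrev MM (m : ℤ) (k : ℕ) (v : M.V) : Prop := Mon w K.o K.T K.Φ K.X m k v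

/-- The span of the monomials. -/
abbrev S (m : ℤ) (k : ℕ) : Submodule ℂ M.V := ms w K.o K.T K.Φ K.X m k

theorem mem_gr {m : ℤ} {k : ℕ} {v : M.V} (h : K.MM m k v) : v ∈ M.gr m := by
  induction h with
  | one => exact K.o_gr
  | th a m k v _ ih => exact K.T_gr a m v ih
  | cu a m k v _ ih => exact K.Φ_gr a m v ih
  | xi i m k v _ ih => exact K.X_gr i m v ih

theorem S_le_gr (m : ℤ) (k : ℕ) : K.S m k ≤ M.gr m := by
  refine Submodule.span_le.2 ?_
  rintro v ⟨j, _, hv⟩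
  exact K.mem_gr hv

/-- Two linear maps agreeing on the monomials are equal. -/
theorem ext_mon {W : Type} [AddCommGroup W] [Module ℂ W] {f g : M.V →ₗ[ℂ] W}
    (h : ∀ m k v, K.MM m k v → f v = g v) (v : M.V) : f v = g v := by
  have h1 : ∀ m, K.S m 0 ≤ LinearMap.eqLocus f g := by
    intro m
    refine Submodule.span_le.2 ?_
    rintro v ⟨j, _, hv⟩
    exact h m j v hv
  exact (iSup_le h1) (K.gen v)

/-- The higher part of the differential. -/
def d1 : Module.End ℂ M.V := M.d - K.d0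

theorem d1_apply (v : M.V) : K.d1 v = M.d v - K.d0 v := rfl

theorem d1_mon {m : ℤ} {k : ℕ} {v : M.V} (h : K.MM m k v) : K.d1 v ∈ K.S (m + 1) (k + 1) := by
  induction h with
  | one => rw [d1_apply, K.d_o, K.d0_o, sub_zero]; exact zero_mem _
  | th a m k v hv ih =>
    have h1 : K.d1 (K.T a v) = (M.d (K.T a v) + K.T a (M.d v) - K.Φ a v) - K.T a (K.d1 v) := by
      rw [d1_apply, d1_apply, K.d0_T, map_sub]; abel
    rw [h1]
    refine sub_mem ?_ ?_
    · have := K.d_T a m k v hv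
      rwa [show m + 2 = m + 1 + 1 by ring] at this
    · exact T_ms a ih
  | cu a m k v hv ih =>
    have h1 : K.d1 (K.Φ a v) = (M.d (K.Φ a v) - K.Φ a (M.d v)) + K.Φ a (K.d1 v) := by
      rw [d1_apply, d1_apply, K.d0_Φ, map_sub]; abel
    rw [h1]
    refine add_mem ?_ ?_
    · have := K.d_Φ a m k v hv
      rwa [show m + 3 = m + 2 + 1 by ring] at this
    · have := Φ_ms (w := w) (o := K.o) (T := K.T) (Φ := K.Φ) (X := K.X) a ih
      rwa [show m + 1 + 2 = m + 2 + 1 by ring] at this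
  | xi i m k v hv ih =>
    have h1 : K.d1 (K.X i v) = (M.d (K.X i v) + K.X i (M.d v)) - K.X i (K.d1 v) := by
      rw [d1_apply, d1_apply, K.d0_X, map_sub]; abel
    rw [h1]
    refine sub_mem (K.d_X i m k v hv) ?_
    have := X_ms (w := w) (o := K.o) (T := K.T) (Φ := K.Φ) (X := K.X) i ih
    rwa [show m + 1 + (w i : ℤ) = m + w i + 1 by ring] at this

theorem d0_mon {m : ℤ} {k : ℕ} {v : M.V} (h : K.MM m k v) : K.d0 v ∈ K.S (m + 1) k := by
  induction h with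
  | one => rw [K.d0_o]; exact zero_mem _
  | th a m k v hv ih =>
    rw [K.d0_T]
    refine sub_mem ?_ (T_ms a ih)
    have := (hv.cu a _ _ _).mem
    rwa [show m + 2 = m + 1 + 1 by ring] at this
  | cu a m k v hv ih =>
    rw [K.d0_Φ]
    have := Φ_ms (w := w) (o := K.o) (T := K.T) (Φ := K.Φ) (X := K.X) a ih
    rwa [show m + 1 + 2 = m + 2 + 1 by ring] at this
  | xi i m k v hv ih =>
    rw [K.d0_X]
    refine neg_mem ?_
    have := X_ms (w := w) (o := K.o) (T := K.T) (Φ := K.Φ) (X := K.X) i ih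
    rwa [show m + 1 + (w i : ℤ) = m + w i + 1 by ring] at this

theorem h_mon {m : ℤ} {k : ℕ} {v : M.V} (h : K.MM m k v) : K.h v ∈ K.S (m - 1) k := by
  induction h with
  | one => rw [K.h_o]; exact zero_mem _
  | th a m k v hv ih =>
    rw [K.h_T]
    refine neg_mem ?_
    have := T_ms (w := w) (o := K.o) (T := K.T) (Φ := K.Φ) (X := K.X) a ih
    rwa [show m - 1 + 1 = m + 1 - 1 by ring] at this
  | cu a m k v hv ih =>
    rw [K.h_Φ]
    refine add_mem ?_ ?_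
    · have := Φ_ms (w := w) (o := K.o) (T := K.T) (Φ := K.Φ) (X := K.X) a ih
      rwa [show m - 1 + 2 = m + 2 - 1 by ring] at this
    · have := (hv.th a _ _ _).mem
      rwa [show m + 1 = m + 2 - 1 by ring] at this
  | xi i m k v hv ih =>
    rw [K.h_X]
    refine neg_mem ?_
    have := X_ms (w := w) (o := K.o) (T := K.T) (Φ := K.Φ) (X := K.X) i ih
    rwa [show m - 1 + (w i : ℤ) = m + w i - 1 by ring] at this

/-- The Euler operator. -/
def E : Module.End ℂ M.V := K.d0 * K.h + K.h * K.d0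

theorem E_apply (v : M.V) : K.E v = K.d0 (K.h v) + K.h (K.d0 v) := rfl

theorem E_mon {m : ℤ} {k : ℕ} {v : M.V} (h : K.MM m k v) : K.E v = (k : ℂ) • v := by
  induction h with
  | one => rw [E_apply, K.h_o, K.d0_o, map_zero, map_zero, add_zero, Nat.cast_zero, zero_smul]
  | th a m k v hv ih =>
    rw [E_apply] at ih ⊢
    rw [K.h_T, K.d0_T, map_neg, K.d0_T, map_sub, K.h_Φ, K.h_T, Nat.cast_succ, add_smul, one_smul,
      ← map_smul, ← ih, map_add]
    abel
  | cu a m k v hv ih =>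
    rw [E_apply] at ih ⊢
    rw [K.h_Φ, K.d0_Φ, map_add, K.d0_Φ, K.d0_T, K.h_Φ, Nat.cast_succ, add_smul, one_smul,
      ← map_smul, ← ih, map_add]
    abel
  | xi i m k v hv ih =>
    rw [E_apply] at ih ⊢
    rw [K.h_X, K.d0_X, map_neg, map_neg, K.h_X, K.d0_X, ← map_smul, ← ih, map_add]
    abel

theorem d0_d0 (v : M.V) : K.d0 (K.d0 v) = 0 := by
  refine K.ext_mon (f := K.d0 * K.d0) (g := 0) (fun m k v hv => ?_) v
  change K.d0 (K.d0 v) = 0
  induction hv with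
  | one => rw [K.d0_o, map_zero]
  | th a m k v hv ih => rw [K.d0_T, map_sub, K.d0_Φ, K.d0_T, ih, map_zero, sub_zero, sub_self]
  | cu a m k v hv ih => rw [K.d0_Φ, K.d0_Φ, ih, map_zero]
  | xi i m k v hv ih => rw [K.d0_X, map_neg, K.d0_X, ih, map_zero, neg_zero, neg_zero]

theorem isP_E : IsP K.E := by
  intro v
  have h1 : ∀ m, K.S m 0 ≤ PV K.E := by
    intro m
    refine Submodule.span_le.2 ?_
    rintro v ⟨j, _, hv⟩
    exact mem_PV_of_eig (K.E_mon hv)
  exact (iSup_le h1) (K.gen v)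

/-- The Green operator. -/
def gg : Green K.E := K.isP_E.green

theorem G_mon {m : ℤ} {k : ℕ} {v : M.V} (h : K.MM m k v) : K.gg.G v = (k : ℂ)⁻¹ • v := by
  have h1 := K.E_mon h
  rcases Nat.eq_zero_or_pos k with rfl | hk
  · rw [Nat.cast_zero, zero_smul] at h1
    rw [Nat.cast_zero, inv_zero, zero_smul, ← K.gg.Pk v h1, K.gg.GP]
  · have hk' : (k : ℂ) ≠ 0 := Nat.cast_ne_zero.2 hk.ne'
    have h2 := K.gg.add v
    rw [K.gg.eq_of_range hk' h1, zero_add, ← K.gg.GC, h1, map_smul] at h2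
    rw [eq_inv_smul_iff₀ hk']
    exact h2

theorem G_S {m : ℤ} {k : ℕ} {v : M.V} (hv : v ∈ K.S m k) : K.gg.G v ∈ K.S m k :=
  map_ms (fun j hj v hv => by
    rw [K.G_mon hv]
    exact Submodule.smul_mem _ _ (ms_le hj hv.mem)) hv

theorem h_S {m : ℤ} {k : ℕ} {v : M.V} (hv : v ∈ K.S m k) : K.h v ∈ K.S (m - 1) k :=
  map_ms (fun _ hj _ hv => ms_le hj (K.h_mon hv)) hv

theorem d0_S {m : ℤ} {k : ℕ} {v : M.V} (hv : v ∈ K.S m k) : K.d0 v ∈ K.S (m + 1) k :=
  map_ms (fun _ hj _ hv => ms_le hj (K.d0_mon hv)) hv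

theorem d1_S {m : ℤ} {k : ℕ} {v : M.V} (hv : v ∈ K.S m k) : K.d1 v ∈ K.S (m + 1) (k + 1) :=
  map_ms (fun _ hj _ hv => ms_le (Nat.succ_le_succ hj) (K.d1_mon hv)) hv

/-- The contraction of the leading part. -/
def s : Module.End ℂ M.V := K.h * K.gg.G

theorem s_apply (v : M.V) : K.s v = K.h (K.gg.G v) := rfl

theorem s_S {m : ℤ} {k : ℕ} {v : M.V} (hv : v ∈ K.S m k) : K.s v ∈ K.S (m - 1) k :=
  K.h_S (K.G_S hv)

theorem d0_E (v : M.V) : K.d0 (K.E v) = K.E (K.d0 v) := by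
  rw [E_apply, E_apply, map_add, K.d0_d0, K.d0_d0, zero_add, map_zero, add_zero]

theorem d0_s (v : M.V) : K.d0 (K.s v) + K.s (K.d0 v) = v - K.gg.P v := by
  rw [s_apply, s_apply, ← K.gg.map_G K.gg (T := K.d0) K.d0_E]
  have h := K.gg.add v
  rw [E_apply] at h
  rw [eq_sub_iff_add_eq, add_comm]
  exact h

theorem pr_mon {m : ℤ} {k : ℕ} {v : M.V} (h : K.MM m k v) (hk : 0 < k) : K.pr v = 0 := by
  induction h with
  | one => exact absurd hk (lt_irrefl 0)
  | th a m k v hv ih => exact K.pr_T a v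
  | cu a m k v hv ih => exact K.pr_Φ a v
  | xi i m k v hv ih => rw [K.pr_X, ih hk, map_zero]

theorem sec_mon {m : ℤ} {k : ℕ} {v : M.V} (h : K.MM m k v) (hk : k = 0) :
    K.sec (K.pr v) = v := by
  induction h with
  | one => rw [K.pr_o, K.sec_o]
  | th a m k v hv ih => exact absurd hk (Nat.succ_ne_zero k)
  | cu a m k v hv ih => exact absurd hk (Nat.succ_ne_zero k)
  | xi i m k v hv ih => rw [K.pr_X, K.sec_X, ih hk]

theorem P_eq (v : M.V) : K.gg.P v = K.sec (K.pr v) := by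
  refine K.ext_mon (f := K.gg.P) (g := K.sec ∘ₗ K.pr) (fun m k v hv => ?_) v
  change K.gg.P v = K.sec (K.pr v)
  have h1 := K.E_mon hv
  rcases Nat.eq_zero_or_pos k with rfl | hk
  · rw [Nat.cast_zero, zero_smul] at h1
    rw [K.gg.Pk v h1, K.sec_mon hv rfl]
  · rw [K.gg.eq_of_range (Nat.cast_ne_zero.2 hk.ne') h1, K.pr_mon hv hk, map_zero]

theorem pr_S {m : ℤ} {k : ℕ} {v : M.V} (hv : v ∈ K.S m (k + 1)) : K.pr v = 0 := by
  have : K.pr v ∈ (⊥ : Submodule ℂ L) :=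
    map_ms (fun j hj v hv => (Submodule.mem_bot ℂ).2 (K.pr_mon hv (by omega))) hv
  exact (Submodule.mem_bot ℂ).1 this

theorem sub_mem_S {m : ℤ} {v : M.V} (hv : v ∈ K.S m 0) : v - K.sec (K.pr v) ∈ K.S m 1 := by
  have := map_ms (S := LinearMap.id - K.sec ∘ₗ K.pr) (Q := K.S m 1) (fun j hj v hv => ?_) hv
  · exact this
  · change v - K.sec (K.pr v) ∈ K.S m 1
    rcases Nat.eq_zero_or_pos j with rfl | hj
    · rw [K.sec_mon hv rfl, sub_self]; exact zero_mem _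
    · rw [K.pr_mon hv hj, map_zero, sub_zero]
      exact ms_le hj hv.mem

theorem mem_S_one {m : ℤ} {v : M.V} (hv : v ∈ M.gr m) (h : K.pr v = 0) : v ∈ K.S m 1 := by
  have := K.sub_mem_S (K.gr_le m hv)
  rwa [h, map_zero, sub_zero] at this

theorem pr_h (v : M.V) : K.pr (K.h v) = 0 := by
  refine K.ext_mon (f := K.pr ∘ₗ K.h) (g := 0) (fun m k v hv => ?_) v
  change K.pr (K.h v) = 0
  induction hv with
  | one => rw [K.h_o, map_zero]
  | th a m k v hv ih => rw [K.h_T, map_neg, K.pr_T, neg_zero]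
  | cu a m k v hv ih => rw [K.h_Φ, map_add, K.pr_Φ, K.pr_T, add_zero]
  | xi i m k v hv ih => rw [K.h_X, map_neg, K.pr_X, ih, map_zero, neg_zero]

theorem pr_s (v : M.V) : K.pr (K.s v) = 0 := K.pr_h _

theorem pr_d0 (v : M.V) : K.pr (K.d0 v) = 0 := by
  refine K.ext_mon (f := K.pr ∘ₗ K.d0) (g := 0) (fun m k v hv => ?_) v
  change K.pr (K.d0 v) = 0
  induction hv with
  | one => rw [K.d0_o, map_zero]
  | th a m k v hv ih => rw [K.d0_T, map_sub, K.pr_Φ, K.pr_T, sub_zero]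
  | cu a m k v hv ih => rw [K.d0_Φ, K.pr_Φ]
  | xi i m k v hv ih => rw [K.d0_X, map_neg, K.pr_X, ih, map_zero, neg_zero]

/-- The projection is a chain map to the space with zero differential. -/
theorem pr_d (v : M.V) : K.pr (M.d v) = 0 := by
  refine K.ext_mon (f := K.pr ∘ₗ M.d) (g := 0) (fun m k v hv => ?_) v
  change K.pr (M.d v) = 0
  have h1 : M.d v = K.d0 v + K.d1 v := by rw [d1_apply]; abel
  rw [h1, map_add, K.pr_d0, K.pr_S (K.d1_mon hv), add_zero]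

/-- The perturbation. -/
def TT : Module.End ℂ M.V := M.d * K.s + K.s * M.d - 1

theorem TT_apply (v : M.V) : K.TT v = M.d (K.s v) + K.s (M.d v) - v := rfl

theorem TT_eq (v : M.V) : K.TT v = K.d1 (K.s v) + K.s (K.d1 v) - K.sec (K.pr v) := by
  have h := K.d0_s v
  rw [P_eq] at h
  rw [TT_apply, d1_apply, d1_apply, map_sub]
  have h2 : K.sec (K.pr v) = v - (K.d0 (K.s v) + K.s (K.d0 v)) := by rw [h]; abel
  rw [h2]
  abel

theorem TT_S {m : ℤ} {k : ℕ} {v : M.V} (hv : v ∈ K.S m (k + 1)) : K.TT v ∈ K.S m (k + 2) := by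
  rw [TT_eq, K.pr_S hv, map_zero, sub_zero]
  refine add_mem ?_ ?_
  · have := K.d1_S (K.s_S hv)
    rwa [sub_add_cancel] at this
  · have := K.s_S (K.d1_S hv)
    rwa [add_sub_cancel_right] at this

theorem TT_pow {m : ℤ} (n : ℕ) {k : ℕ} {v : M.V} (hv : v ∈ K.S m (k + 1)) :
    (K.TT ^ n) v ∈ K.S m (k + n + 1) := by
  induction n generalizing k v with
  | zero => exact hv
  | succ n ih =>
    rw [pow_succ, Module.End.mul_apply]
    have := ih (K.TT_S hv)
    rwa [show k + 1 + n + 1 = k + (n + 1) + 1 by ring] at this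

theorem s_gr {m : ℤ} {v : M.V} (hv : v ∈ M.gr m) : K.s v ∈ M.gr (m - 1) :=
  K.S_le_gr _ _ (K.s_S (K.gr_le m hv))

/-- **The kernel of the projection is exact.** -/
theorem exact {m : ℤ} {v : M.V} (hv : v ∈ M.gr m) (hp : K.pr v = 0) (hd : M.d v = 0) :
    ∃ y ∈ M.gr (m - 1), K.pr y = 0 ∧ M.d y = v := by
  let g : ℤ → Submodule ℂ M.V := fun p => M.gr p ⊓ LinearMap.ker K.pr
  have h0 : (K.TT ^ (m.toNat)) v = 0 := by
    have h1 := K.TT_pow m.toNat (k := 0) (K.mem_S_one hv hp)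
    have h2 : m < ((0 + m.toNat + 1 : ℕ) : ℤ) := by omega
    rw [S, ms_eq_bot h2] at h1
    exact (Submodule.mem_bot ℂ).1 h1
  obtain ⟨w, hw, hw2⟩ := exact_of_nil (D := M.d) (s := K.s) (T := K.TT) M.dd
    (fun v => by rw [TT_apply]; abel) g (fun p v hv => ⟨M.dgr p v hv.1, K.pr_d v⟩)
    (fun p v hv => ⟨by simpa using K.s_gr hv.1, K.pr_s v⟩) m.toNat (m - 1) v
    ⟨by rw [sub_add_cancel]; exact hv, hp⟩ hd h0
  exact ⟨w, hw.1, hw.2, hw2⟩

theorem sec_pr_gr {m : ℤ} {v : M.V} (hv : v ∈ M.gr m) : K.sec (K.pr v) ∈ M.gr m := by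
  have h1 := K.S_le_gr _ _ (K.sub_mem_S (K.gr_le m hv))
  have := sub_mem hv h1
  rwa [sub_sub_cancel] at this

/-- A morphism compatible with the projections is a quasi-isomorphism. -/
theorem qis {α' : Type} {M' : GD} (K' : Koz α' w xi oL M') (r : GD.Hom M M')
    (hr : ∀ v, K'.pr (r.f v) = K.pr v) : GD.Qis r := by
  -- the sections have the same degree
  have key : ∀ m k v, K'.MM m k v → K.sec (K'.pr v) ∈ M.gr m := by
    intro m k v hv
    induction hv with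
    | one => rw [K'.pr_o, K.sec_o]; exact K.o_gr
    | th a m k v hv ih => rw [K'.pr_T, map_zero]; exact zero_mem _
    | cu a m k v hv ih => rw [K'.pr_Φ, map_zero]; exact zero_mem _
    | xi i m k v hv ih => rw [K'.pr_X, K.sec_X]; exact K.X_gr i m _ ih
  have key2 : ∀ m, ∀ v ∈ M'.gr m, K.sec (K'.pr v) ∈ M.gr m := by
    intro m v hv
    exact map_ms (S := K.sec ∘ₗ K'.pr) (fun j _ v hv => key m j v hv) (K'.gr_le m hv)
  intro m
  refine ⟨?_, ?_⟩
  · rintro x hx hd ⟨y, hy, e⟩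
    have h1 : K.pr x = 0 := by rw [← hr, ← e, K'.pr_d]
    obtain ⟨z, hz, _, hz2⟩ := K.exact hx h1 hd
    exact ⟨z, hz, hz2⟩
  · intro y hy hd
    have hx0 := key2 m y hy
    obtain ⟨x1, hx1, hp1, e1⟩ := K.exact (M.dgr m _ hx0) (K.pr_d _) (M.dd _)
    rw [add_sub_cancel_right] at hx1
    have hx : K.sec (K'.pr y) - x1 ∈ M.gr m := sub_mem hx0 hx1
    obtain ⟨y', hy', _, e2⟩ := K'.exact (v := y - r.f (K.sec (K'.pr y) - x1))
      (sub_mem hy (r.deg m _ hx))
      (by rw [map_sub, hr, map_sub, K.pr_sec, hp1, sub_zero, sub_self])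
      (by rw [map_sub, hd, ← r.comm, map_sub, e1, sub_self, map_zero, sub_zero])
    exact ⟨_, hx, by rw [map_sub, e1, sub_self], y', hy', e2⟩

end Koz

end

end Vale.Agent.P286.H44
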