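import Vale.Agent.P286.H44.KKoz

/-!
# The restriction, for the classical Lie algebras
-/

namespace Vale.Agent.P286.H44

open Matrix Vale.Agent.P286.H341 Vale.Agent.P286.H166 Vale.Agent.P286.H847 Vale.Agent.P286

noncomputable section

variable {I : Type} [Fintype I] [DecidableEq I] {n k : ℕ} {e : Fin k → Matrix I I ℂ}
  (S : H374.Dat I)

/-- The data of a classical Lie algebra are compatible with the matrices. -/
theorem ld_lieSD (h : Onb (lieS S) e) (hn : 2 * n ≤ Fintype.card I)
    (hex : ∀ F : H374.PM I, S.proj F = F → (∀ A, S.Mem A → H374.ad A F = 0) →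
      ∃ P : MvPolynomial (Fin n) ℂ, F = MvPolynomial.aeval (H42.ys S n) P)
    (hai : AlgebraicIndependent ℂ (H42.ys S n)) :
    LD e (lieS S) (lieSD S h hn hex hai) where
  onb := h
  lie := lieS_lie
  r _ := rfl
  F _ := rfl
  y t := yS_X S h hn t

/-- The restriction. -/
def rsLie (h : Onb (lieS S) e) (hn : 2 * n ≤ Fintype.card I)
    (hex : ∀ F : H374.PM I, S.proj F = F → (∀ A, S.Mem A → H374.ad A F = 0) →
      ∃ P : MvPolynomial (Fin n) ℂ, F = MvPolynomial.aeval (H42.ys S n) P)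
    (hai : AlgebraicIndependent ℂ (H42.ys S n)) :
    GD.Hom (WK I n).toGD
      ((lieSG S h hn hex hai).kg.gd (ld_lieSD S h hn hex hai).DD) :=
  rsHom (lieSG S h hn hex hai) (ld_lieSD S h hn hex hai)

theorem qis_rsLie (h : Onb (lieS S) e) (hn : 2 * n ≤ Fintype.card I)
    (hex : ∀ F : H374.PM I, S.proj F = F → (∀ A, S.Mem A → H374.ad A F = 0) →
      ∃ P : MvPolynomial (Fin n) ℂ, F = MvPolynomial.aeval (H42.ys S n) P)
    (hai : AlgebraicIndependent ℂ (H42.ys S n)) : GD.Qis (rsLie S h hn hex hai) :=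
  qis_rs (lieSG S h hn hex hai) (ld_lieSD S h hn hex hai)

end

end Vale.Agent.P286.H44
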