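import Vale.Agent.P286.H710.OmCt
import Vale.Agent.P286.H761.Cas2

/-!
# The de Rham complex as a graded differential space, and its Casimir operators
-/

namespace Vale.Agent.P286.H44

open Vale.Agent.P286.H710 Vale.Agent.P286.H847 Vale.Agent.P286.H847.GD Vale.Agent.P286.H761
  KaehlerDifferential

noncomputable section

variable {A B : Type} [CommRing A] [Algebra ℂ A] [CommRing B] [Algebra ℂ B]

theorem cmul_eq (c : ℂ) (x : Om ℂ A) : c • x = (algebraMap ℂ A c) • x :=
  (algebraMap_smul A c x).symm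

theorem dd_const (c : ℂ) : (Om.dd (algebraMap ℂ A c) : Om ℂ A) = 0 := by
  rw [Om.dd, Derivation.map_algebraMap, map_zero]

/-- The differential. -/
def dL (A : Type) [CommRing A] [Algebra ℂ A] : Om ℂ A →ₗ[ℂ] Om ℂ A where
  toFun := Om.d
  map_add' := Om.d_add
  map_smul' c x := by
    rw [cmul_eq, Om.d_smul, dd_const, zero_mul, add_zero, RingHom.id_apply, cmul_eq]

@[simp] theorem dL_apply (x : Om ℂ A) : dL A x = Om.d x := rfl

/-- The contraction. -/
def ctL (v : Derivation ℂ A A) : Om ℂ A →ₗ[ℂ] Om ℂ A where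
  toFun := Om.ct v
  map_add' := map_add _
  map_smul' c x := by rw [cmul_eq, map_smul, RingHom.id_apply, cmul_eq]

@[simp] theorem ctL_apply (v : Derivation ℂ A A) (x : Om ℂ A) : ctL v x = Om.ct v x := rfl

/-- The Lie derivative. -/
def lieL (v : Derivation ℂ A A) : Om ℂ A →ₗ[ℂ] Om ℂ A := dL A ∘ₗ ctL v + ctL v ∘ₗ dL A

@[simp] theorem lieL_apply (v : Derivation ℂ A A) (x : Om ℂ A) : lieL v x = Om.lie v x := rfl

theorem lie_smul (v : Derivation ℂ A A) (a : A) (x : Om ℂ A) :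
    Om.lie v (a • x) = v a • x + a • Om.lie v x := by
  rw [Algebra.smul_def, Om.lie_mul, Om.lie_alg, ← Algebra.smul_def, ← Algebra.smul_def]

/-- The forms of degree `m`. -/
def omg (A : Type) [CommRing A] [Algebra ℂ A] (m : ℤ) : Submodule ℂ (Om ℂ A) where
  carrier := {x | x = 0 ∨ ∃ p : ℕ, m = p ∧ x ∈ Om.gr ℂ A p}
  add_mem' := by
    rintro x y (rfl | ⟨p, hp, hx⟩) (rfl | ⟨q, hq, hy⟩)
    · exact Or.inl (add_zero 0)
    · rw [zero_add]; exact Or.inr ⟨q, hq, hy⟩
    · rw [add_zero]; exact Or.inr ⟨p, hp, hx⟩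
    · obtain rfl : p = q := by omega
      exact Or.inr ⟨p, hp, add_mem hx hy⟩
  zero_mem' := Or.inl rfl
  smul_mem' := by
    rintro c x (rfl | ⟨p, hp, hx⟩)
    · exact Or.inl (smul_zero c)
    · rw [cmul_eq]; exact Or.inr ⟨p, hp, Submodule.smul_mem _ _ hx⟩

theorem mem_omg {m : ℤ} {x : Om ℂ A} :
    x ∈ omg A m ↔ x = 0 ∨ ∃ p : ℕ, m = p ∧ x ∈ Om.gr ℂ A p := Iff.rfl

theorem mem_omg_nat {p : ℕ} {x : Om ℂ A} : x ∈ omg A p ↔ x ∈ Om.gr ℂ A p := by
  constructor
  · rintro (rfl | ⟨q, hq, hx⟩)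
    · exact Submodule.zero_mem _
    · obtain rfl : p = q := by omega
      exact hx
  · intro h
    exact Or.inr ⟨p, rfl, h⟩

/-- The de Rham complex. -/
abbrev OmGD (A : Type) [CommRing A] [Algebra ℂ A] : GD where
  V := Om ℂ A
  d := dL A
  dd := Om.d_d
  gr := omg A
  dgr m x hx := by
    rcases hx with rfl | ⟨p, rfl, hx⟩
    · rw [map_zero]; exact Submodule.zero_mem _
    · exact Or.inr ⟨p + 1, by push_cast; ring, Om.d_mem hx⟩

/-- The pull-back of forms. -/
def pbL (f : A →ₐ[ℂ] B) : Om ℂ A →ₗ[ℂ] Om ℂ B where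
  toFun := Om.pb f
  map_add' := map_add _
  map_smul' c x := by
    rw [cmul_eq, Om.pb_smul, AlgHom.commutes, RingHom.id_apply]
    exact algebraMap_smul B c _

/-- The pull-back of forms. -/
def OmGD.pb (f : A →ₐ[ℂ] B) : Hom (OmGD A) (OmGD B) where
  f := pbL f
  comm := Om.pb_d f
  deg m x hx := by
    rcases hx with rfl | ⟨p, rfl, hx⟩
    · rw [map_zero]; exact Submodule.zero_mem _
    · exact Or.inr ⟨p, rfl, Om.pb_mem f hx⟩

theorem ct_mem_omg (v : Derivation ℂ A A) (m : ℤ) {x : Om ℂ A} (hx : x ∈ omg A m) :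
    Om.ct v x ∈ omg A (m - 1) := by
  rcases hx with rfl | ⟨p, rfl, hx⟩
  · rw [map_zero]; exact Submodule.zero_mem _
  · rcases p with _ | p
    · rw [Om.ct_gr_zero v hx]; exact Submodule.zero_mem _
    · exact Or.inr ⟨p, by push_cast; ring, Om.ct_mem v hx⟩

theorem lie_mem_omg (v : Derivation ℂ A A) (m : ℤ) {x : Om ℂ A} (hx : x ∈ omg A m) :
    Om.lie v x ∈ omg A m := by
  rcases hx with rfl | ⟨p, rfl, hx⟩
  · have : Om.lie v (0 : Om ℂ A) = 0 := map_zero (lieL v)
    rw [this]; exact Submodule.zero_mem _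
  · exact Or.inr ⟨p, rfl, Om.lie_mem v hx⟩

/-! ## Casimir operators -/

variable {κ : Type} [Fintype κ] (r r' : κ → Derivation ℂ A A)

/-- The Casimir operator on forms. -/
def cas : Om ℂ A →ₗ[ℂ] Om ℂ A := ∑ a, lieL (r a) ∘ₗ lieL (r' a)

/-- The homotopy. -/
def cash : Om ℂ A →ₗ[ℂ] Om ℂ A := ∑ a, ctL (r a) ∘ₗ lieL (r' a)

/-- The Casimir operator on functions. -/
def casF : A →ₗ[ℂ] A := ∑ a, (r a : A →ₗ[ℂ] A) ∘ₗ (r' a : A →ₗ[ℂ] A)

theorem cas_apply (x : Om ℂ A) : cas r r' x = ∑ a, Om.lie (r a) (Om.lie (r' a) x) := by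
  simp [cas]

theorem casF_apply (x : A) : casF r r' x = ∑ a, r a (r' a x) := by
  simp [casF]

theorem cash_apply (x : Om ℂ A) : cash r r' x = ∑ a, Om.ct (r a) (Om.lie (r' a) x) := by
  simp [cash]

theorem cas_eq (x : Om ℂ A) : dL A (cash r r' x) + cash r r' (dL A x) = cas r r' x := by
  rw [cash_apply, cash_apply, map_sum, ← Finset.sum_add_distrib, cas_apply]
  refine Finset.sum_congr rfl fun a _ => ?_
  rw [dL_apply, dL_apply, Om.lie_d]
  rfl

theorem cash_mem (m : ℤ) {x : Om ℂ A} (hx : x ∈ omg A m) : cash r r' x ∈ omg A (m - 1) := by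
  rw [cash_apply]
  exact Submodule.sum_mem _ fun a _ => ct_mem_omg _ _ (lie_mem_omg _ _ hx)

/-- The Casimir operator on a multiple of an invariant form. -/
theorem cas_smul {x : Om ℂ A} (h : ∀ a, Om.lie (r a) x = 0) (h' : ∀ a, Om.lie (r' a) x = 0)
    (f : A) : cas r r' (f • x) = casF r r' f • x := by
  rw [cas_apply, casF_apply, Finset.sum_smul]
  refine Finset.sum_congr rfl fun a _ => ?_
  rw [lie_smul, h', smul_zero, add_zero, lie_smul, h, smul_zero, add_zero]

theorem lie_list_prod (v : Derivation ℂ A A) (l : List (Om ℂ A)) (h : ∀ x ∈ l, Om.lie v x = 0) :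
    Om.lie v l.prod = 0 := by
  induction l with
  | nil =>
    have := Om.lie_alg v (1 : A)
    rw [map_one, Derivation.map_one_eq_zero, map_zero] at this
    exact this
  | cons x l ih =>
    rw [List.prod_cons, Om.lie_mul, h x List.mem_cons_self,
      ih fun y hy => h y (List.mem_cons_of_mem x hy), zero_mul, mul_zero, add_zero]

variable {ι : Type} [Fintype ι] [LinearOrder ι] (θ : Module.Basis ι A (Ω[A⁄ℂ]))

omit [Fintype ι] in
theorem lie_basis (v : Derivation ℂ A A) (h : ∀ i, Om.lie v (ExteriorAlgebra.ι A (θ i)) = 0)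
    (I : Finset ι) : Om.lie v (θ.ExteriorAlgebra I) = 0 := by
  rw [ExteriorAlgebra.basis_apply]
  change Om.lie v (ExteriorAlgebra.ιMulti A _ _) = 0
  rw [ExteriorAlgebra.ιMulti_apply]
  apply lie_list_prod
  intro x hx
  rw [List.mem_ofFn] at hx
  obtain ⟨i, rfl⟩ := hx
  exact h _

/-- The span of the products of the forms `θ i` over the complex numbers. -/
def LI : Submodule ℂ (Om ℂ A) := Submodule.span ℂ (Set.range θ.ExteriorAlgebra)

end

end Vale.Agent.P286.H44
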