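import Vale.Agent.P286.H44.Rst
import Vale.Agent.P286.H166.Wk1
import Vale.Agent.P286.H273.WkAux

/-!
# The restriction is a surjective chain map
-/

namespace Vale.Agent.P286.H44

open TensorProduct Matrix Vale.Agent.P286.H341 Vale.Agent.P286.H166 Vale.Agent.P286.H847

noncomputable section

set_option linter.unusedSectionVars false

section Top

variable {n k : ℕ}

theorem Tk_tt (a : Fin k) (x : Ex (Fin k)) (w : MK n k) : Tk n a (tt x w) = tt (Ex.th a x) w :=
  tm_tt _ _ _ _

theorem Xk_tt_one (t : Fin n) (w : MK n k) : Xk k t (tt 1 w) = tt 1 (tm (Ex.th t) 1 w) := by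
  rw [Xk, tm_tt, Ex.ep_one]

theorem Fk_tt (s : MvPolynomial (Fin k) ℂ) (x : Ex (Fin k)) (z : Ex (Fin n))
    (t : MvPolynomial (Fin k) ℂ) : Fk n k s (tt x (tt z t)) = tt x (tt z (s * t)) := by
  rw [Fk_apply, tm_tt, tm_tt]
  rfl

/-- A subspace containing the unit and stable under the generators is everything. -/
theorem KK_top (N : Submodule ℂ (KK n k)) (h1 : ok n k ∈ N)
    (hT : ∀ a, ∀ v ∈ N, Tk n a v ∈ N) (hX : ∀ t, ∀ v ∈ N, Xk k t v ∈ N)
    (hF : ∀ a, ∀ v ∈ N, Fk n k (MvPolynomial.X a) v ∈ N) (v : KK n k) : v ∈ N := by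
  have hP : ∀ s : MvPolynomial (Fin k) ℂ, ∀ v ∈ N, Fk n k s v ∈ N := by
    intro s
    induction s using MvPolynomial.induction_on with
    | C a =>
      intro v hv
      rw [← MvPolynomial.algebraMap_eq, AlgHom.commutes, Algebra.algebraMap_eq_smul_one,
        LinearMap.smul_apply, Module.End.one_apply]
      exact N.smul_mem a hv
    | add s t hs ht => intro v hv; rw [map_add]; exact N.add_mem (hs v hv) (ht v hv)
    | mul_X s a hs => intro v hv; rw [map_mul]; exact hs _ (hF a v hv)
  have h2 : ∀ w : MK n k, (tt 1 w : KK n k) ∈ N := by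
    intro w
    induction w using KV.ind with
    | h0 => rw [KV.tt_zero']; exact N.zero_mem
    | ha v w hv hw => rw [KV.tt_add']; exact N.add_mem hv hw
    | h z s =>
      induction z using Ex.ind with
      | h1 =>
        have := hP s _ h1
        rw [ok, Fk_tt, mul_one] at this
        exact this
      | hs c x hx => rw [KV.tt_smul, KV.tt_smul']; exact N.smul_mem c hx
      | ha x y hx hy => rw [KV.tt_add, KV.tt_add']; exact N.add_mem hx hy
      | hm v x hx =>
        rw [Ex.ι_eq, Finset.sum_mul]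
        have e1 : ∀ t, Xk k t (tt 1 (tt x s)) = tt 1 (tt (Ex.gn t * x) s) := by
          intro t
          rw [Xk_tt_one, tm_tt]
          rfl
        have e2 : (tt 1 (tt (∑ t, v t • Ex.gn t * x) s) : KK n k) =
            ∑ t, v t • Xk k t (tt 1 (tt x s)) := by
          have e3 : ∀ (S : Finset (Fin n)), (tt 1 (tt (∑ t ∈ S, v t • Ex.gn t * x) s) : KK n k) =
              ∑ t ∈ S, v t • Xk k t (tt 1 (tt x s)) := by
            intro S
            induction S using Finset.induction_on with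
            | empty => rw [Finset.sum_empty, Finset.sum_empty, KV.tt_zero, KV.tt_zero']
            | insert a S ha ih =>
              rw [Finset.sum_insert ha, Finset.sum_insert ha, KV.tt_add, KV.tt_add', ih, e1,
                smul_mul_assoc, KV.tt_smul, KV.tt_smul']
          exact e3 _
        rw [e2]
        exact Submodule.sum_mem _ fun t _ => N.smul_mem _ (hX t _ hx)
  induction v using KV.ind with
  | h0 => exact N.zero_mem
  | ha v w hv hw => exact N.add_mem hv hw
  | h x w =>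
    induction x using Ex.ind with
    | h1 => exact h2 w
    | hs c x hx => rw [KV.tt_smul]; exact N.smul_mem c hx
    | ha x y hx hy => rw [KV.tt_add]; exact N.add_mem hx hy
    | hm v x hx =>
      rw [Ex.ι_eq, Finset.sum_mul]
      have e3 : ∀ (S : Finset (Fin k)), (tt (∑ t ∈ S, v t • Ex.gn t * x) w : KK n k) =
          ∑ t ∈ S, v t • Tk n t (tt x w) := by
        intro S
        induction S using Finset.induction_on with
        | empty => rw [Finset.sum_empty, Finset.sum_empty, KV.tt_zero]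
        | insert a S ha ih =>
          rw [Finset.sum_insert ha, Finset.sum_insert ha, KV.tt_add, ih, Tk_tt,
            smul_mul_assoc, KV.tt_smul]
          rfl
      rw [e3]
      exact Submodule.sum_mem _ fun t _ => N.smul_mem _ (hT t _ hx)

end Top

variable {I : Type} [Fintype I] [DecidableEq I] {n k : ℕ} {e : Fin k → Matrix I I ℂ}
  {g : Submodule ℂ (Matrix I I ℂ)} {d : SD (stc e) n (MvPolynomial (Fin k) ℂ)}

/-- The square of `θ`. -/
def ZZ (n : ℕ) (e : Fin k → Matrix I I ℂ) (i j : I) : Module.End ℂ (KK n k) :=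
  ∑ a, ∑ b, (e a * e b) i j • (Tk n a * Tk n b)

theorem sum_gl_gl (i j : I) :
    ∑ l, gl e n (Sum.inl (i, l)) * gl e n (Sum.inl (l, j)) = ZZ n e i j := by
  have h1 : ∀ l, gl e n (Sum.inl (i, l)) * gl e n (Sum.inl (l, j)) =
      ∑ a, ∑ b, (e a i l * e b l j) • (Tk n a * Tk n b) := by
    intro l
    rw [gl_inl, gl_inl, Finset.sum_mul_sum]
    refine Finset.sum_congr rfl fun a _ => Finset.sum_congr rfl fun b _ => ?_
    rw [smul_mul_smul_comm]
  simp only [h1]
  rw [Finset.sum_comm, ZZ]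
  refine Finset.sum_congr rfl fun a _ => ?_
  rw [Finset.sum_comm]
  refine Finset.sum_congr rfl fun b _ => ?_
  rw [← Finset.sum_smul, Matrix.mul_apply]

theorem ZZ_swap (i j : I) : ∑ a, ∑ b, (e b * e a) i j • (Tk n a * Tk n b) = -ZZ n e i j := by
  rw [ZZ, Finset.sum_comm, ← Finset.sum_neg_distrib]
  refine Finset.sum_congr rfl fun a _ => ?_
  rw [← Finset.sum_neg_distrib]
  refine Finset.sum_congr rfl fun b _ => ?_
  rw [Tk_Tk b a, smul_neg]

theorem res_X_eq (i j : I) : res e (MvPolynomial.X (i, j)) =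
    ∑ a, e a i j • (MvPolynomial.X a : MvPolynomial (Fin k) ℂ) := by
  rw [res_X]
  exact Finset.sum_congr rfl fun a _ => (MvPolynomial.smul_eq_C_mul _ _).symm

variable (h : LD e g d)

include h

theorem LD.D_gl_inl (i j : I) : d.kd'.D * gl e n (Sum.inl (i, j)) + gl e n (Sum.inl (i, j)) * d.kd'.D =
    Fk n k (res e (MvPolynomial.X (i, j))) - ZZ n e i j := by
  have h1 : d.kd'.D * gl e n (Sum.inl (i, j)) + gl e n (Sum.inl (i, j)) * d.kd'.D =
      ∑ l, e l i j • (Fk n k (d.F l) -
        (1 / 2 : ℂ) • ∑ a, ∑ b, stc e a b l • (Tk n a * Tk n b)) := by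
    rw [gl_inl, Finset.mul_sum, Finset.sum_mul, ← Finset.sum_add_distrib]
    refine Finset.sum_congr rfl fun l _ => ?_
    rw [mul_smul_comm, smul_mul_assoc, ← smul_add, D_Tk]
  have h2 : ∑ l, e l i j • ((1 / 2 : ℂ) • ∑ a, ∑ b, stc e a b l • (Tk n a * Tk n b)) = ZZ n e i j := by
    have h3 : ∑ l, e l i j • ((1 / 2 : ℂ) • ∑ a, ∑ b, stc e a b l • (Tk n a * Tk n b)) =
        (1 / 2 : ℂ) • ∑ a, ∑ b, (e a * e b - e b * e a) i j • (Tk n a * Tk n b) := by
      rw [Finset.smul_sum]
      simp only [smul_comm _ (1 / 2 : ℂ)]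
      rw [← Finset.smul_sum, ← Finset.smul_sum]
      congr 1
      simp only [Finset.smul_sum]
      rw [Finset.sum_comm]
      refine Finset.sum_congr rfl fun a _ => ?_
      rw [Finset.sum_comm]
      refine Finset.sum_congr rfl fun b _ => ?_
      rw [h.onb.bracket h.lie, Matrix.sum_apply, Finset.sum_smul]
      refine Finset.sum_congr rfl fun l _ => ?_
      rw [smul_smul, Matrix.smul_apply, smul_eq_mul, mul_comm]
    rw [h3]
    simp only [Matrix.sub_apply, sub_smul, Finset.sum_sub_distrib]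
    rw [ZZ_swap, sub_neg_eq_add, ← ZZ, ← two_smul ℂ, smul_smul]
    norm_num
  rw [h1]
  simp only [smul_sub, Finset.sum_sub_distrib, h2]
  congr 1
  rw [res_X_eq, map_sum]
  refine Finset.sum_congr rfl fun a _ => ?_
  rw [h.F, map_smul]

theorem LD.D_gl (a : Gn I n) : d.kd'.D * gl e n a + gl e n a * d.kd'.D =
    ph e n (Wk.dgn I n a) := by
  rcases a with ⟨i, j⟩ | t
  · rw [h.D_gl_inl]
    have h1 : Wk.dgn I n (Sum.inl (i, j)) = Wk.Fm I n i j -
        ∑ l, Wk.gn I n (Sum.inl (i, l)) * Wk.gn I n (Sum.inl (l, j)) := by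
      change (Wk.Fm I n - Wk.th I n * Wk.th I n) i j = _
      rw [Matrix.sub_apply, Matrix.mul_apply]
      rfl
    have h2 : ph e n (Wk.Fm I n i j) = Fk n k (res e (MvPolynomial.X (i, j))) := ph_inP e _
    rw [h1, map_sub, map_sum, h2, ← sum_gl_gl]
    congr 1
    refine Finset.sum_congr rfl fun l _ => ?_
    rw [map_mul, ph_gn, ph_gn]
  · rw [gl_inr, D_Xk, h.y]
    exact (ph_inP e _).symm

theorem LD.D_F (s : I × I) : d.kd'.D * Fk n k (res e (MvPolynomial.X s)) -
    Fk n k (res e (MvPolynomial.X s)) * d.kd'.D = ph e n (Wk.dF I n s) := by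
  obtain ⟨i, j⟩ := s
  rw [D_Fk]
  have h1 : Wk.dF I n (i, j) = ∑ l, Wk.Fm I n i l * Wk.gn I n (Sum.inl (l, j)) -
        ∑ l, Wk.gn I n (Sum.inl (i, l)) * Wk.Fm I n l j := by
    change (Wk.Fm I n * Wk.th I n - Wk.th I n * Wk.Fm I n) i j = _
    rw [Matrix.sub_apply, Matrix.mul_apply, Matrix.mul_apply]
    rfl
  have h2 : ∀ i j, ph e n (Wk.Fm I n i j) = Fk n k (res e (MvPolynomial.X (i, j))) :=
    fun i j => ph_inP e _
  have h3 : ∀ (a : ℂ) (s : MvPolynomial (Fin k) ℂ), Fk n k (MvPolynomial.C a * s) =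
      a • Fk n k s := by
    intro a s
    rw [← MvPolynomial.smul_eq_C_mul, map_smul]
  have h4 : ∀ a : Fin k, Tk n a * Fk n k (d.r a (res e (MvPolynomial.X (i, j)))) =
      ∑ l, (e a l j • (Fk n k (res e (MvPolynomial.X (i, l))) * Tk n a) -
        e a i l • (Tk n a * Fk n k (res e (MvPolynomial.X (l, j))))) := by
    intro a
    rw [h.r_res, map_sum, Finset.mul_sum]
    refine Finset.sum_congr rfl fun l _ => ?_
    rw [map_sub, h3, mul_comm (res e (MvPolynomial.X (i, l))), h3, mul_sub, mul_smul_comm,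
      mul_smul_comm, Tk_Fk]
  have h5 : ∀ l, ph e n (Wk.Fm I n i l * Wk.gn I n (Sum.inl (l, j))) =
      ∑ a, e a l j • (Fk n k (res e (MvPolynomial.X (i, l))) * Tk n a) := by
    intro l
    rw [map_mul, h2, ph_gn, gl_inl, Finset.mul_sum]
    exact Finset.sum_congr rfl fun a _ => mul_smul_comm _ _ _
  have h6 : ∀ l, ph e n (Wk.gn I n (Sum.inl (i, l)) * Wk.Fm I n l j) =
      ∑ a, e a i l • (Tk n a * Fk n k (res e (MvPolynomial.X (l, j)))) := by
    intro l
    rw [map_mul, h2, ph_gn, gl_inl, Finset.sum_mul]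
    exact Finset.sum_congr rfl fun a _ => smul_mul_assoc _ _ _
  rw [h1, map_sub, map_sum, map_sum, Finset.sum_congr rfl fun a _ => h4 a,
    Finset.sum_congr rfl fun l _ => h5 l, Finset.sum_congr rfl fun l _ => h6 l, Finset.sum_comm,
    ← Finset.sum_sub_distrib]
  refine Finset.sum_congr rfl fun l _ => ?_
  rw [Finset.sum_sub_distrib]

omit h in
theorem d_gn_mul (a : Gn I n) (x : Wk I n) : Wk.d I n (Wk.gn I n a * x) =
    Wk.dgn I n a * x - Wk.gn I n a * Wk.d I n x := by
  rw [Wk.d_mul, Wk.d_gn, Wk.sgA_gn, H273.w_neg_mul, sub_eq_add_neg]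

omit h in
theorem d_X_mul (s : I × I) (x : Wk I n) : Wk.d I n (Wk.inP I n (MvPolynomial.X s) * x) =
    Wk.dF I n s * x + Wk.inP I n (MvPolynomial.X s) * Wk.d I n x := by
  have h1 := Wk.d_Fm (n := n) s.1 s.2
  rw [Wk.Fm_apply] at h1
  rw [Wk.d_mul, h1, Wk.sgA_inP]
  rfl

/-- **The restriction is a chain map.** -/
theorem LD.rs_d (x : Wk I n) : rs e n (Wk.d I n x) = d.kd'.D (rs e n x) := by
  induction x using H273.wk_ind with
  | h1 => rw [Wk.d_one, map_zero, rs_one, D_ok]
  | ha x y hx hy => rw [map_add, map_add, hx, hy, map_add, map_add]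
  | hs c x hx => rw [map_smul, map_smul, hx, map_smul, map_smul]
  | hg a x hx =>
    have h1 := LinearMap.congr_fun (h.D_gl a) (rs e n x)
    rw [LinearMap.add_apply, Module.End.mul_apply, Module.End.mul_apply] at h1
    rw [d_gn_mul, map_sub, rs_mul, rs_gn, rs_gn, hx, ← h1, add_sub_cancel_right]
  | hp s x hx =>
    have h1 := LinearMap.congr_fun (h.D_F s) (rs e n x)
    rw [LinearMap.sub_apply, Module.End.mul_apply, Module.End.mul_apply] at h1
    rw [d_X_mul, map_add, rs_mul, rs_inP, rs_inP, hx, ← h1, sub_add_cancel]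

theorem LD.sum_star (T : Fin k → Module.End ℂ (KK n k)) (a : Fin k) :
    ∑ i, ∑ j, star (e a i j) • ∑ b, e b i j • T b = T a := by
  have h1 : ∑ i, ∑ j, star (e a i j) • ∑ b, e b i j • T b = ∑ b, trace (e b * (e a)ᴴ) • T b := by
    have h2 : ∀ i, ∑ j, star (e a i j) • ∑ b, e b i j • T b =
        ∑ b, (∑ j, e b i j * star (e a i j)) • T b := by
      intro i
      simp only [Finset.smul_sum, Finset.sum_smul, smul_smul]
      rw [Finset.sum_comm]
      exact Finset.sum_congr rfl fun b _ => Finset.sum_congr rfl fun j _ => by rw [mul_comm]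
    simp only [h2]
    rw [Finset.sum_comm]
    refine Finset.sum_congr rfl fun b _ => ?_
    rw [← Finset.sum_smul]
    rfl
  rw [h1, Finset.sum_eq_single a, h.onb.orth, if_pos rfl, one_smul]
  · intro b _ hb
    rw [h.onb.orth, if_neg hb, zero_smul]
  · intro hh; exact absurd (Finset.mem_univ a) hh

/-- **The restriction is surjective.** -/
theorem LD.rs_surjective : Function.Surjective (rs e n) := by
  intro v
  have : v ∈ LinearMap.range (rs e n) := by
    refine KK_top (LinearMap.range (rs e n)) ⟨1, rs_one e⟩ ?_ ?_ ?_ v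
    · rintro a _ ⟨x, rfl⟩
      refine ⟨(∑ i, ∑ j, star (e a i j) • Wk.gn I n (Sum.inl (i, j))) * x, ?_⟩
      rw [rs_mul]
      congr 1
      have := h.sum_star (Tk n) a
      rw [← this, map_sum]
      refine Finset.sum_congr rfl fun i _ => ?_
      rw [map_sum]
      refine Finset.sum_congr rfl fun j _ => ?_
      rw [map_smul, ph_gn, gl_inl]
    · rintro t _ ⟨x, rfl⟩
      exact ⟨Wk.gn I n (Sum.inr t) * x, rs_gn e _ _⟩
    · rintro a _ ⟨x, rfl⟩
      refine ⟨(∑ i, ∑ j, star (e a i j) • Wk.inP I n (MvPolynomial.X (i, j))) * x, ?_⟩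
      rw [rs_mul]
      congr 1
      have := h.sum_star (fun a => Fk n k (MvPolynomial.X a)) a
      rw [← this, map_sum]
      refine Finset.sum_congr rfl fun i _ => ?_
      rw [map_sum]
      refine Finset.sum_congr rfl fun j _ => ?_
      rw [map_smul, ph_inP, res_X_eq, map_sum]
      congr 1
      exact Finset.sum_congr rfl fun b _ => map_smul _ _ _
  exact this

/-- **The differential of the Koszul complex has square zero.** -/
theorem LD.DD (v : KK n k) : d.kd'.D (d.kd'.D v) = 0 := by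
  obtain ⟨x, rfl⟩ := h.rs_surjective v
  rw [← h.rs_d, ← h.rs_d, Wk.d_d, map_zero]

end

end Vale.Agent.P286.H44
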